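import Vale.Agent.P241.H585.GSpace
import Mathlib.Analysis.SpecialFunctions.Trigonometric.Basic

/-!
# P241, genuine `G`-spectra, statement layer, part 1: spaces and maps

* `reg G`, `regLine G` : the regular representation `ρ` and `ρ ⊕ ℝ`;
* `IsRes H f g` : `g` is the restriction of `f` to the `H`-fixed points;
* `IsDeg m d` : `d` is the standard self-map of degree `m` of the circle `ℝ⁺`.
-/

open OnePoint

noncomputable section

namespace Vale.Agent.P241Z

open Vale.Agent.P251.St Vale.Agent.P241.St

/-- The real regular representation `ρ` of the finite group `G`. -/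
def reg (G : Type) [Group G] [Finite G] : GSpace G :=
  letI : MulAction G (G → ℝ) := arrowAction
  haveI : ContinuousConstSMul G (G → ℝ) :=
    ⟨fun g => continuous_pi fun h => continuous_apply (g⁻¹ * h)⟩
  ⟨G → ℝ⟩

/-- The representation `ρ ⊕ ℝ`. Its multiples are cofinal among all representations. -/
def regLine (G : Type) [Group G] [Finite G] : GSpace G := (reg G).prod (GSpace.triv G Rr)

variable {G : Type} [Group G]

/-- The inclusion `(X^H)⁺ → X⁺` of the fixed points. -/
def fixIncl (X : GSpace G) (H : Subgroup G) : (X.fix H).Pt → X.und.Pt := OnePoint.map Subtype.val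

/-- `g` is the restriction of `f` to the `H`-fixed points. -/
def IsRes {X Y : GSpace G} (H : Subgroup G) (f : X.und.Pt → Y.und.Pt)
    (g : (X.fix H).Pt → (Y.fix H).Pt) : Prop :=
  ∀ x, fixIncl Y H (g x) = f (fixIncl X H x)

open scoped Classical in
/-- The parametrisation `θ ↦ cot θ` of the circle `ℝ⁺ = ℝ / π ℤ`. -/
def circ (θ : ℝ) : Rr.Pt :=
  if Real.sin θ = 0 then ∞ else Space.pt (X := Rr) (Real.cos θ / Real.sin θ)

/-- `d` is the map `θ ↦ m θ` of degree `m` of the circle. -/
def IsDeg (m : ℕ) (d : Map Rr Rr) : Prop := ∀ θ : ℝ, d.toFun (circ θ) = circ (m * θ)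

end Vale.Agent.P241Z
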