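import Vale.Agent.P241Z.D0
import Mathlib.GroupTheory.PGroup
import Mathlib.GroupTheory.SpecificGroups.Cyclic
import Mathlib.GroupTheory.QuotientGroup.Basic
import Mathlib.CategoryTheory.Localization.Construction
import Mathlib.CategoryTheory.Idempotents.Karoubi

/-!
# P241, genuine `G`-spectra, statement layer, part 2

* `Th`, `CP`, `RingA`, `Oriented`, `IsMoravaK` : Morava `K`-theories (as in the statement layer of
  the result for spaces, in a shorter form);
* `GCell` : finite `G`-cell spaces;
* `Ob`, `Edge`, `Rel`, `Gr`, `Inv`, `Loc` : the `p`-local genuine equivariant Spanier-Whitehead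
  category, by generators and relations;
* `FinSp G p` : its idempotent completion, the category of compact `p`-local genuine `G`-spectra;
* `IsGeomFix` : geometric fixed point functors;
* `Forces`, `loss`, `ell` : the chromatic fixed point loss and the number `ℓ(G, H)`.
-/

open CategoryTheory MonoidalCategory OnePoint Matrix

noncomputable section

namespace Vale.Agent.P241Y

open Vale.Agent.P251.St SHCat Vale.Agent.P241.St P241Z

/-! ### Morava `K`-theories -/

/-- The space `ℂ^n` (`(ℂ^n)⁺` is the sphere of dimension `2 n`). -/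
abbrev Cn (n : ℕ) : Space := ⟨Fin n → ℂ⟩

/-- `P` is an orthogonal projection of rank `n` of `ℂ^A`. -/
def IsProj (n : ℕ) {A : Type} [Fintype A] (P : Matrix A A ℂ) : Prop :=
  P * P = P ∧ Pᴴ = P ∧ P.trace = n

/-- The total space of the tautological bundle over the Grassmannian of `n`-dimensional subspaces
of `ℂ^A`: pairs `(P, v)` of a projection and a vector in its image. -/
abbrev ThSet (n : ℕ) (A : Type) [Fintype A] : Set (Matrix A A ℂ × (A → ℂ)) :=
  {x | IsProj n x.1 ∧ x.1 *ᵥ x.2 = x.2}

/-- The projective space of `ℂ^A`: projections of rank one. -/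
abbrev CPSet (A : Type) [Fintype A] : Set (Matrix A A ℂ) := {P | IsProj 1 P}

/-- The Thom space of the tautological bundle is `(Th n A)⁺`. -/
def Th (n : ℕ) (A : Type) [Fintype A] : Space :=
  haveI : LocallyCompactSpace (ThSet n A) := id (lc_th n A)
  ⟨ThSet n A⟩

/-- The projective space of `ℂ^A`. -/
def CP (A : Type) [Fintype A] : Space :=
  haveI : LocallyCompactSpace (CPSet A) := id (lc_cp A)
  ⟨CPSet A⟩

/-- `f : X⁺ → (Th n A)⁺` is the map `x ↦ (P x, v x)`. -/
def IsPair {X : Space} {n : ℕ} {A : Type} [Fintype A] (P : X.carrier → Matrix A A ℂ)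
    (v : X.carrier → A → ℂ) (f : Map X (Th n A)) : Prop :=
  ∀ x : X.carrier, ∃ y : (Th n A).carrier, f.toFun (Space.pt x) = Space.pt y ∧ y.1 = (P x, v x)

variable {T : SHCat}

/-- A homotopy associative ring spectrum (for `p = 2` the Morava `K`-theories are not homotopy
commutative). -/
structure RingA (T : SHCat) where
  /-- the underlying spectrum -/
  obj : T.C
  [mon : MonObj obj]

attribute [instance] RingA.mon

/-- the multiplication -/
abbrev RingA.mul (K : RingA T) : Hom (ten K.obj K.obj) K.obj := MonObj.mul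

/-- the unit -/
abbrev RingA.unit (K : RingA T) : Hom T.one K.obj := MonObj.one

/-- the multiple `a f` of a morphism by an integer -/
abbrev zmul {A B : T.C} (a : ℤ) (f : Hom A B) : Hom A B := a • f

/-- the sphere of dimension `k` -/
abbrev sphere (T : SHCat) (k : ℤ) : T.C := (𝟙_ T.C)⟦k⟧

/-- the interchange `(A ⊗ B) ⊗ (C ⊗ D) ⟶ (A ⊗ C) ⊗ (B ⊗ D)` -/
abbrev exch (A B C D : T.C) : Hom (ten (ten A B) (ten C D)) (ten (ten A C) (ten B D)) :=
  tensorμ A B C D

/-- `π_k K = 0` unless `d` divides `k`, and `π_0 K = 𝔽_p`. -/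
structure IsPeriodicField (K : RingA T) (p : ℕ) (d : ℤ) : Prop where
  sparse : ∀ (k : ℤ) (f : Hom (sphere T k) K.obj), ¬ d ∣ k → f = 0
  char : zmul p K.unit = 0
  ne : K.unit ≠ 0
  gen : ∀ f : Hom T.one K.obj, ∃ a : ℤ, f = zmul a K.unit

/-- `K` is the rational Eilenberg-Mac Lane spectrum: `π_* K = ℚ` in degree `0`. -/
structure IsRational (K : RingA T) : Prop where
  conc : ∀ (k : ℤ) (f : Hom (sphere T k) K.obj), k ≠ 0 → f = 0
  ne : K.unit ≠ 0
  div : ∀ m : ℤ, m ≠ 0 → Function.Bijective fun f : Hom T.one K.obj => zmul m f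
  gen : ∀ f : Hom T.one K.obj, ∃ a m : ℤ, m ≠ 0 ∧ zmul m f = zmul a K.unit

variable (S : Susp T)

/-- The cohomology group `K^{2n}(X⁺)`. -/
abbrev Coh (K : RingA T) (n : ℕ) (X : Space) : Type := Hom (S.obj X) (ten K.obj (S.obj (Cn n)))

variable {S}

/-- `z ∈ K^{2(n+m)}(X⁺ ∧ Y⁺)` is the external product of `x ∈ K^{2n}(X⁺)` and `y ∈ K^{2m}(Y⁺)`. -/
def IsCross {K : RingA T} {n m : ℕ} {X Y : Space} (x : Coh S K n X) (y : Coh S K m Y)
    (z : Coh S K (n + m) (X.prod Y)) : Prop :=
  ∀ g : Map ((Cn n).prod (Cn m)) (Cn (n + m)),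
    (∀ (a : Fin n → ℂ) (b : Fin m → ℂ), g.toFun (Space.pt (X := (Cn n).prod (Cn m)) (a, b)) =
      Space.pt (X := Cn (n + m)) (Fin.append a b)) →
    comp (S.mul X Y) z = comp (tenHom x y)
      (comp (exch K.obj (S.obj (Cn n)) K.obj (S.obj (Cn m)))
        (tenHom K.mul (comp (S.mul (Cn n) (Cn m)) (S.map g))))

/-- the image of a cohomology class under a map of ring spectra -/
abbrev push {R K : RingA T} (u : Hom R.obj K.obj) {n : ℕ} {X : Space}
    (x : Coh S R n X) : Coh S K n X :=
  comp x (tenHom u (ident (S.obj (Cn n))))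

variable (S)

/-- A complex orientation of the ring spectrum `R`: a multiplicative family of Thom classes
`θ n A ∈ R^{2n}(Th n A)` of the tautological bundles, compatible with isometries and direct sums
and normalised on the fibre `ℂ^n`. -/
structure Oriented (R : RingA T) where
  /-- the Thom classes -/
  θ (n : ℕ) (A : Type) [Fintype A] : Coh S R n (Th n A)
  isom : ∀ {n : ℕ} {A B : Type} [Fintype A] [Fintype B] [DecidableEq A] (u : Matrix B A ℂ)
    (f : Map (Th n A) (Th n B)), uᴴ * u = 1 →
    IsPair (fun x : ThSet n A => u * x.1.1 * uᴴ) (fun x : ThSet n A => u *ᵥ x.1.2) f →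
    comp (S.map f) (θ n B) = θ n A
  sum : ∀ {n m : ℕ} {A B : Type} [Fintype A] [Fintype B]
    (f : Map ((Th n A).prod (Th m B)) (Th (n + m) (A ⊕ B))),
    IsPair (fun x : ThSet n A × ThSet m B => fromBlocks x.1.1.1 0 0 x.2.1.1)
      (fun x : ThSet n A × ThSet m B => Sum.elim x.1.1.2 x.2.1.2) f →
    IsCross (θ n A) (θ m B) (comp (S.map f) (θ (n + m) (A ⊕ B)))
  fibre : ∀ (n : ℕ) (f : Map (Cn n) (Th n (Fin n))),
    IsPair (fun _ => 1) (fun x => x) f →
    comp (leftUnit (S.obj (Cn n))) (comp (S.map f) (θ n (Fin n))) =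
      tenHom R.unit (ident (S.obj (Cn n)))

/-- `u : R ⟶ K` is a map from a ring spectrum `R` with the complex orientation `o`.
The `p`-series of the induced orientation of `K` is `[p](x) = v x ^ (N + 1)` modulo `x ^ (N + 2)`
with an invertible `v ∈ π_{2N} K`. Here `w ∈ K^{2N}(pt)` is the inverse of `v`; the equation
`x ^ (N + 1) = w [p](x)` is stated on the projective space of `ℂ^(N + 2)`: `e` is the zero section
of `N + 1` copies of the tautological line bundle, and `t` is the one of its `p`-th tensor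
power. -/
def HasPSeries {R : RingA T} (K : RingA T) (u : Hom R.obj K.obj) (p N : ℕ)
    (o : Oriented S R) : Prop :=
  ∃ (v : Hom (S.obj (Cn N)) K.obj) (w : Coh S K N Pn),
    comp S.unit (comp w (comp (tenHom (ident K.obj) v) K.mul)) = K.unit ∧
      ∀ (e : Map (CP (Fin (N + 2))) (Th (N + 1) (Fin (N + 1) × Fin (N + 2))))
        (t : Map (CP (Fin (N + 2))) (Th 1 (Fin p → Fin (N + 2))))
        (q : Map (Pn.prod (CP (Fin (N + 2)))) (CP (Fin (N + 2)))),
        IsPair (fun (x : CPSet (Fin (N + 2))) i j => if i.1 = j.1 then x.1 i.2 j.2 else 0)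
          (fun _ => 0) e →
        IsPair (fun (x : CPSet (Fin (N + 2))) i j => ∏ k, x.1 (i k) (j k)) (fun _ => 0) t →
        (∀ x : (CP (Fin (N + 2))).carrier,
          q.toFun (Space.pt (X := Pn.prod (CP _)) ((), x)) = Space.pt x) →
        IsCross w (comp (S.map t) (push u (o.θ 1 _)))
          (comp (S.map q) (comp (S.map e) (push u (o.θ (N + 1) _))))

/-- `K` is a Morava `K`-theory of height `n` at the prime `p` (any prime): for `n ≥ 1` it is an
associative ring spectrum with `π_* K = 𝔽_p[v, v⁻¹]`, `|v| = 2 (p ^ n - 1)`, complex oriented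
through a map `u : R ⟶ K` of ring spectra from a commutative complex oriented ring spectrum (such
as `MU`, or `K` itself if `p` is odd) with a formal group of height `n`. -/
def IsMoravaK (p n : ℕ) (K : RingA T) : Prop :=
  if n = 0 then IsRational K else
    IsPeriodicField K p (2 * ((p : ℤ) ^ n - 1)) ∧
      ∃ (R : RingA T) (u : Hom R.obj K.obj) (o : Oriented S R),
        IsCommMonObj R.obj ∧ IsMonHom u ∧ HasPSeries S K u p (p ^ n - 1) o

/-- `W` is `E`-acyclic: `E ⊗ W = 0`. -/
def Acyclic (E W : T.C) : Prop := ident (ten E W) = 0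

/-- `Z` is `p`-local: the integers prime to `p` act invertibly. -/
def PLocal (p : ℕ) (Z : T.C) : Prop := ∀ m : ℕ, m.Coprime p → IsIso (zmul m (ident Z))

/-- `f : A ⟶ B` is the `p`-localisation of `A`. -/
def IsPLoc (p : ℕ) {A B : T.C} (f : Hom A B) : Prop :=
  PLocal p B ∧ ∀ Z, PLocal p Z → Function.Bijective fun g : Hom B Z => comp f g

/-! ### Finite `p`-local genuine `G`-spectra -/

variable {G : Type} [Group G]

/-- The orbit `G/V`. -/
def orb (V : Subgroup G) : GSpace G :=
  letI : TopologicalSpace (G ⧸ V) := ⊥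
  haveI : DiscreteTopology (G ⧸ V) := ⟨rfl⟩
  haveI := lc_of_discrete (G ⧸ V)
  haveI : ContinuousConstSMul G (G ⧸ V) := ⟨fun _ => continuous_of_discreteTopology⟩
  ⟨G ⧸ V⟩

/-- Finite `G`-cell spaces: the smallest class of `G`-spaces which contains the empty space and all
cells `G/V × ℝⁿ`, and is closed under `G`-homotopy equivalence and under extensions along
`G`-cofibrations. -/
inductive GCell : GSpace G → Prop
  | empty : GCell (.triv G Em)
  | cell (V : Subgroup G) (n : ℕ) : GCell ((orb V).prod (.triv G (Rn n)))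
  | hequiv {X Y : GSpace G} : GCell X → GHEquiv X Y → GCell Y
  | ext {A B C : GSpace G} {i : Map A.und B.und} {q : Map B.und C.und} :
      IsGMap i.toFun → IsGMap q.toFun → GCofib i → IsQuot i q → GCell A → GCell C → GCell B

/-- Pointed continuous `G`-maps `X⁺ → Y⁺`. -/
structure GMap (X Y : GSpace G) where
  /-- the underlying function -/
  fn : X.und.Pt → Y.und.Pt
  cont : Continuous fn
  pt : fn ∞ = ∞
  eqv : IsGMap fn

/-- The object `(X, k)` stands for the desuspension `S^(-k V) ∧ Σ^∞ X⁺`, where `V = ρ ⊕ ℝ`. -/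
structure Ob (G : Type) [Group G] [Finite G] where
  /-- the `G`-space -/
  sp : GSpace G
  fin : GCell sp
  /-- the number of desuspensions -/
  k : ℕ

variable [Finite G]

/-- The generating morphisms: a `G`-map `X⁺ → Y⁺` gives `(X, k) ⟶ (Y, k)`, and a `G`-map
`X⁺ ∧ S^V → Y⁺` gives `(X, k) ⟶ (Y, k + 1)`. -/
inductive Edge (A B : Ob G) : Type
  | map (f : GMap A.sp B.sp) (h : B.k = A.k)
  | up (u : GMap (A.sp.prod (regLine G)) B.sp) (h : B.k = A.k + 1)

instance quiv : Quiver (Ob G) := ⟨Edge⟩

/-- The path with one edge. -/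
def one {A B : Ob G} (e : Edge A B) : Quiver.Path A B := .cons .nil e

/-- The path with two edges. -/
def two {A B C : Ob G} (e : Edge A B) (e' : Edge B C) : Quiver.Path A C := (one e).cons e'

/-- The relations: identities, composition up to `G`-homotopy, and the naturality of the
suspension. -/
inductive Rel : ∀ {A B : Ob G}, Quiver.Path A B → Quiver.Path A B → Prop
  | id {A} (f a) : f.fn = id → Rel (one (A := A) (.map f a)) .nil
  | comp {A B C} (f g h a b c) : GHomotopic (g.fn ∘ f.fn) h.fn →
      Rel (two (B := B) (.map f a) (.map g b)) (one (A := A) (B := C) (.map h c))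
  | nat {A B A' B'} (f u u' f' a b c d) :
      (∀ x (y : (regLine G).und.Pt), u.fn (smash (f.fn x) y) = f'.fn (u'.fn (smash x y))) →
      Rel (two (A := A) (B := B) (C := B') (.map f a) (.up u b))
        (two (B := A') (.up u' c) (.map f' d))

/-- The morphisms which are inverted: the identifications of `(X, k)` with `(X ∧ S^V, k + 1)`, and
the self-maps `1 ∧ d` of suspensions `X⁺ ∧ S¹` with `d` of degree prime to `p`. -/
inductive Inv (p : ℕ) : ∀ {A B : Ob G}, Quiver.Path A B → Prop
  | up {A B} (u h) : Function.Bijective u.fn → Inv p (one (A := A) (B := B) (.up u h))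
  | deg {X} (h k m d) (f : GMap _ _) : GCell X → m.Coprime p → IsDeg m d →
      (∀ (x : X.und.Pt) (y : Rr.Pt), f.fn (smash x y) = smash x (d.toFun y)) →
      Inv p (one (A := ⟨X.prod (.triv G Rr), h, k⟩) (.map f rfl))

variable (G) (p : ℕ)

/-- The free category on the generators. -/
def Fr := Paths (Ob G)

instance catFr : Category (Fr G) := Paths.categoryPaths _

/-- The category with these generators and relations. -/
def Gr := CategoryTheory.Quotient (C := Fr G) (@Rel G _ _)

instance catGr : Category (Gr G) := Quotient.category _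

/-- The canonical functor. -/
def toGr : Fr G ⥤ Gr G := Quotient.functor _

/-- The morphisms which are inverted. -/
def W : MorphismProperty (Gr G) := .strictMap (C := Fr G) (@Inv G _ _ p) (toGr G)

/-- The `p`-local genuine equivariant Spanier-Whitehead category. -/
def Loc := (W G p).Localization

instance catLoc : Category (Loc G p) := (W G p).instCategoryLocalization

/-- **Finite `p`-local genuine `G`-spectra**: split all idempotents. -/
def FinSp := Idempotents.Karoubi (Loc G p)

instance catFin : Category (FinSp G p) := Idempotents.Karoubi.instCategory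

/-- The canonical functor. -/
def toFin : Fr G ⥤ FinSp G p := toGr G ⋙ (W G p).Q ⋙ Idempotents.toKaroubi (Loc G p)

variable {G}

/-- Naturally in `X`, the spectrum `F (X, k) ∧ E k` is the `p`-localisation of `Σ^∞ (X^H)⁺`. -/
def IsFix (H : Subgroup G) (F : Fr G ⥤ T.C) (E : ℕ → T.C) : Prop :=
  ∃ θ : ∀ A : Ob G, Hom (S.obj (A.sp.fix H)) (ten (F.obj A) (E A.k)),
    (∀ A, IsPLoc p (θ A)) ∧ ∀ X Y a b k (f : GMap X Y) (g : Map _ _), IsRes H f.fn g.toFun →
      comp (S.map g) (θ ⟨Y, b, k⟩) = comp (θ ⟨X, a, k⟩)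
        (tenHom (F.map (one (B := ⟨Y, b, k⟩) (.map f rfl))) (ident _))

variable {p}

/-- `Φ` is a geometric fixed point functor `Φ^H`: naturally in `X`, the spectrum
`Φ (X, k) ∧ S^(k d)` is the `p`-localisation of `Σ^∞ (X^H)⁺`, where `d = [G : H] + 1` is the
dimension of `V^H`. -/
def IsGeomFix (H : Subgroup G) (Φ : FinSp G p ⥤ T.C) : Prop :=
  IsFix S p H (toFin G p ⋙ Φ) fun k => S.obj (Rn (k * (H.index + 1)))

/-! ### The chromatic fixed point loss and the number `ℓ(G, H)` -/

/-- `K(n+r)_* (Φ X) = 0` implies `K(n)_* (Ψ X) = 0` for all `X`. -/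
def Forces (K : ℕ → RingA T) {C : Type 1} (Φ Ψ : C → T.C) (n r : ℕ) : Prop :=
  ∀ X, Acyclic (K (n + r)).obj (Φ X) → Acyclic (K n).obj (Ψ X)

/-- The chromatic fixed point loss. -/
def loss (K : ℕ → RingA T) {C : Type 1} (Φ Ψ : C → T.C) (n : ℕ) : ℕ :=
  sInf {r | Forces K Φ Ψ n r}

/-- There is a chain `H = c 0 ⊴ c 1 ⊴ ⋯ ⊴ c s = G`, each group normal in the next, with cyclic
quotients. -/
def HasCyclicChain (H : Subgroup G) (s : ℕ) : Prop :=
  ∃ c : ℕ → Subgroup G, c 0 = H ∧ c s = ⊤ ∧ ∀ i < s, c i ≤ c (i + 1) ∧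
    ∃ _ : ((c i).subgroupOf (c (i + 1))).Normal,
      IsCyclic (↥(c (i + 1)) ⧸ (c i).subgroupOf (c (i + 1)))

/-- The number `ℓ(G, H)`. -/
def ell (H : Subgroup G) : ℕ := sInf {s | HasCyclicChain H s}

end Vale.Agent.P241Y
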