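import Vale.Agent.P241Z.L0
import Vale.Agent.P241Z.St

/-!
# P241, genuine `G`-spectra: the category of finite `G`-cell spaces

* `GFin G` : finite `G`-cell spaces; `susp G` : the smash product with the sphere of `ρ ⊕ ℝ`;
* `fixF S H` : the functor `X ↦ Σ^∞ (X^H)⁺`;
* the comparison with the definitions of the statement layer.
-/

open CategoryTheory OnePoint

noncomputable section

namespace Vale.Agent.P241Z

open Vale.Agent.P251.St Vale.Agent.P251.St.SHCat Vale.Agent.P241.St

variable {G : Type} [Group G]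

/-- Pointed continuous `G`-maps `X⁺ → Y⁺`. -/
def GMap (X Y : GSpace G) : Type :=
  {f : Map X.und Y.und // IsGMap (X := X) (Y := Y) f.toFun}

/-- The identity. -/
def GMap.id (X : GSpace G) : GMap X X := ⟨⟨_root_.id, continuous_id, rfl⟩, fun _ _ => rfl⟩

/-- The composition. -/
def GMap.comp {X Y Z : GSpace G} (f : GMap X Y) (g : GMap Y Z) : GMap X Z :=
  ⟨⟨g.1.toFun ∘ f.1.toFun, g.1.cont.comp f.1.cont,
    (congrArg g.1.toFun f.1.map_infty).trans g.1.map_infty⟩,
    fun a x => (congrArg g.1.toFun (f.2 a x)).trans (g.2 a _)⟩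

/-- The smash product of two `G`-maps. -/
def GMap.smash {X X' Y Y' : GSpace G} (f : GMap X X') (g : GMap Y Y') :
    GMap (X.prod Y) (X'.prod Y') :=
  ⟨⟨smashFun f.1.toFun g.1.toFun, continuous_smashFun f.1 g.1, rfl⟩,
    isGMap_smashFun f.1 g.1 f.2 g.2⟩

/-- A map between spaces with trivial action. -/
def GMap.triv (G : Type) [Group G] {X Y : Space} (f : Map X Y) :
    GMap (GSpace.triv G X) (GSpace.triv G Y) := ⟨f, isGMap_triv' f⟩

/-- Finite `G`-cell spaces. -/
structure GFin (G : Type) [Group G] where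
  /-- the `G`-space -/
  sp : GSpace G
  gfc : GFC G sp

instance gFinCategory : Category (GFin G) where
  Hom X Y := GMap X.sp Y.sp
  id X := GMap.id X.sp
  comp f g := f.comp g
  id_comp _ := rfl
  comp_id _ := rfl
  assoc _ _ _ := rfl

variable [Finite G]

/-- The functor `X⁺ ↦ X⁺ ∧ S^(ρ ⊕ ℝ)`. -/
def susp (G : Type) [Group G] [Finite G] : GFin G ⥤ GFin G where
  obj X := ⟨X.sp.prod (regLine G), gfc_susp X.gfc⟩
  map f := GMap.smash f (GMap.id (regLine G))
  map_id X := Subtype.ext (map_ext (smashFun_id (X := X.sp.und) (Y := (regLine G).und)))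
  map_comp f g := Subtype.ext (map_ext
    (smashFun_comp (Y := (regLine G).und) (g' := id) f.1.toFun id g.1.map_infty rfl))

variable {T : SHCat}

/-- The restriction of a `G`-map to the `H`-fixed points. -/
def fixM {X Y : GFin G} (f : X ⟶ Y) (H : Subgroup G) : Map (X.sp.fix H) (Y.sp.fix H) :=
  (exists_res H f.1 f.2).choose

omit [Finite G] in
theorem fixM_spec {X Y : GFin G} (f : X ⟶ Y) (H : Subgroup G) :
    IsRes H f.1.toFun (fixM f H).toFun := (exists_res H f.1 f.2).choose_spec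

/-- The functor `X ↦ Σ^∞ (X^H)⁺`. -/
def fixF (S : Susp T) (H : Subgroup G) : GFin G ⥤ T.C where
  obj X := S.obj (X.sp.fix H)
  map f := S.map (fixM f H)
  map_id X := S.map_id _ (fc_fix X.gfc H) ((fixM_spec (𝟙 X) H).eq_id H)
  map_comp {X Y Z} f g := S.map_comp _ _ _ (fc_fix X.gfc H) (fc_fix Y.gfc H) (fc_fix Z.gfc H)
    ((fixM_spec f H).eq_comp H (fixM_spec g H) (fixM_spec (f ≫ g) H))

theorem fixF_homotopic (S : Susp T) (H : Subgroup G) {X Y : GFin G} {f g : X ⟶ Y}
    (h : GHomotopic (X := X.sp) (Y := Y.sp) f.1.toFun g.1.toFun) :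
    (fixF S H).map f = (fixF S H).map g :=
  S.map_homotopic _ _ (fc_fix X.gfc H) (fc_fix Y.gfc H)
    ((fixM_spec f H).homotopic H f.2 g.2 (fixM_spec g H) h)

omit [Finite G] in
theorem ghom_ext {X Y : GFin G} {f g : X ⟶ Y} (h : f.1.toFun = g.1.toFun) : f = g :=
  Subtype.ext (map_ext h)

omit [Finite G] in
theorem isIso_of_bijective {X Y : GFin G} (u : X ⟶ Y) (h : Function.Bijective u.1.toFun) :
    IsIso u := by
  let e : X.sp.und.Pt ≃ₜ Y.sp.und.Pt :=
    Continuous.homeoOfEquivCompactToT2 (f := Equiv.ofBijective _ h) u.1.cont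
  have he : ∀ x, e x = u.1.toFun x := fun _ => rfl
  refine ⟨⟨⟨e.symm, e.symm.continuous, ?_⟩, fun g y => ?_⟩, ghom_ext (funext fun x => ?_),
    ghom_ext (funext fun y => ?_)⟩
  · rw [Homeomorph.symm_apply_eq, he]
    exact u.1.map_infty.symm
  · change e.symm _ = X.sp.smul g (e.symm y)
    rw [Homeomorph.symm_apply_eq, he, u.2, ← he, Homeomorph.apply_symm_apply]
  · exact e.symm_apply_apply x
  · exact e.apply_symm_apply y

theorem smash_surj {X Y : Space} (z : (X.prod Y).Pt) : ∃ x y, z = smash x y := by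
  induction z using OnePoint.rec with
  | infty => exact ⟨∞, ∞, rfl⟩
  | coe z => exact ⟨Space.pt z.1, Space.pt z.2, rfl⟩

/-! ### the comparison with the statement layer -/

omit [Finite G] in
theorem gCell_iff {X : GSpace G} : P241Y.GCell X ↔ GFC G X := by
  constructor
  · intro h
    induction h with
    | empty => exact .empty
    | cell V n => exact .cell V n
    | hequiv _ h ih => exact .hequiv ih h
    | ext a b c d _ _ i j => exact .ext a b c d i j
  · intro h
    induction h with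
    | empty => exact .empty
    | cell V n => exact .cell V n
    | hequiv _ h ih => exact .hequiv ih h
    | ext a b c d _ _ i j => exact .ext a b c d i j

/-- the finite `G`-cell space of an object -/
abbrev gf (A : P241Y.Ob G) : GFin G := ⟨A.sp, gCell_iff.mp A.fin⟩

/-- the object of a finite `G`-cell space -/
abbrev mkOb (X : GFin G) (k : ℕ) : P241Y.Ob G := ⟨X.sp, gCell_iff.mpr X.gfc, k⟩

/-- the two kinds of `G`-maps -/
def toZ {X Y : GSpace G} (f : P241Y.GMap X Y) : GMap X Y := ⟨⟨f.fn, f.cont, f.pt⟩, f.eqv⟩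

/-- the two kinds of `G`-maps -/
def toY {X Y : GSpace G} (f : GMap X Y) : P241Y.GMap X Y :=
  ⟨f.1.toFun, f.1.cont, f.1.map_infty, f.2⟩

/-- the two kinds of ring spectra -/
abbrev toSt (K : P241Y.RingA T) : RingA T := ⟨K.obj⟩

/-- the two kinds of ring spectra -/
abbrev ofSt (K : RingA T) : P241Y.RingA T := ⟨K.obj⟩

theorem isMoravaK_iff {S : Susp T} {p n : ℕ} {K : P241Y.RingA T} :
    P241Y.IsMoravaK S p n K ↔ IsMoravaK S p n (toSt K) := by
  unfold P241Y.IsMoravaK IsMoravaK
  split_ifs with hn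
  · exact ⟨fun h => ⟨h.conc, h.ne, h.div, h.gen⟩, fun h => ⟨h.conc, h.ne, h.div, h.gen⟩⟩
  · constructor
    · rintro ⟨h, R, u, o, h1, h2, h3⟩
      exact ⟨⟨h.sparse, h.char, h.ne, h.gen⟩, ⟨R.obj⟩, u, h2, ⟨o.θ, o.isom, o.sum, o.fibre⟩, h3⟩
    · rintro ⟨h, R, u, h2, o, h3⟩
      exact ⟨⟨h.sparse, h.char, h.ne, h.gen⟩, ⟨R.obj⟩, u, ⟨o.θ, o.isom, o.sum, o.fibre⟩, R.comm,
        h2, h3⟩

end Vale.Agent.P241Z
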