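import Vale.Agent.P241Z.L0
import Vale.Agent.P241.H241.Lin
import Vale.Agent.P251.G.Gauge
import Vale.Agent.P251.St.ToFunctor
import Mathlib.Analysis.SpecialFunctions.Trigonometric.Arctan

/-!
# P241, genuine `G`-spectra: self-maps of the circle

* `exists_isDeg` : the map of degree `m` exists;
* `map_isDeg` : it induces the multiplication by `m`.
-/

open CategoryTheory MonoidalCategory OnePoint Set Topology Real

noncomputable section

namespace Vale.Agent.P241Z

open Vale.Agent.P251 Vale.Agent.P251.St Vale.Agent.P241.St Vale.Agent.P241 Vale.Agent.P251.G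
open Vale.Agent.P251.G.LC Vale.Agent.P251.I

theorem circ_of_eq {θ : ℝ} (h : sin θ = 0) : circ θ = ∞ := if_pos h

theorem circ_of_ne {θ : ℝ} (h : sin θ ≠ 0) :
    circ θ = Space.pt (X := Rr) (cos θ / sin θ) := if_neg h

theorem continuous_circ' : Continuous circ := by
  have h : circ = ratio (E := ℝ) cos sin := by
    funext θ
    by_cases h : sin θ = 0
    · rw [circ_of_eq h, ratio_of_eq_zero h]
    · rw [circ_of_ne h, ratio_of_ne_zero h, smul_eq_mul, inv_mul_eq_div]
  rw [h]
  refine continuous_ratio continuous_cos continuous_sin fun θ h1 h2 => ?_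
  have h3 := sin_sq_add_cos_sq θ
  rw [h1, h2] at h3
  norm_num at h3

theorem circ_add_int_mul_pi (θ : ℝ) (k : ℤ) : circ (θ + k * π) = circ θ := by
  have h1 : ((-1 : ℝ) ^ k) ≠ 0 := zpow_ne_zero k (by norm_num)
  by_cases h : sin θ = 0
  · rw [circ_of_eq h, circ_of_eq]
    rw [sin_add_int_mul_pi, h, mul_zero]
  · rw [circ_of_ne h, circ_of_ne, sin_add_int_mul_pi, cos_add_int_mul_pi, mul_div_mul_left _ _ h1]
    rw [sin_add_int_mul_pi]
    exact mul_ne_zero h1 h

theorem circ_nat_mul_pi (m : ℕ) : circ (m * π) = ∞ := circ_of_eq (sin_nat_mul_pi m)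

theorem circ_surj (y : Rr.Pt) : ∃ θ ∈ Icc (0 : ℝ) π, circ θ = y := by
  induction y using OnePoint.rec with
  | infty => exact ⟨0, ⟨le_rfl, pi_pos.le⟩, circ_of_eq sin_zero⟩
  | coe x =>
    have h1 := arctan_lt_pi_div_two x
    have h2 := neg_pi_div_two_lt_arctan x
    refine ⟨π / 2 - arctan x, ⟨by linarith, by linarith⟩, ?_⟩
    rw [circ_of_ne, sin_pi_div_two_sub, cos_pi_div_two_sub, ← tan_eq_sin_div_cos, tan_arctan]
    rw [sin_pi_div_two_sub]
    exact (cos_arctan_pos x).ne'

theorem end_of_sin {θ : ℝ} (h : θ ∈ Icc (0 : ℝ) π) (h0 : sin θ = 0) : θ = 0 ∨ θ = π := by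
  rcases eq_or_lt_of_le h.2 with h1 | h1
  · exact Or.inr h1
  · exact Or.inl ((sin_eq_zero_iff_of_lt_of_lt (by linarith [h.1, pi_pos]) h1).mp h0)

theorem circ_inj {θ θ' : ℝ} (h : θ ∈ Icc (0 : ℝ) π) (h' : θ' ∈ Icc (0 : ℝ) π)
    (e : circ θ = circ θ') : θ = θ' ∨ (sin θ = 0 ∧ sin θ' = 0) := by
  by_cases h0 : sin θ = 0
  · refine Or.inr ⟨h0, ?_⟩
    by_contra h1
    rw [circ_of_eq h0, circ_of_ne h1] at e
    exact OnePoint.infty_ne_coe _ e
  · by_cases h1 : sin θ' = 0
    · rw [circ_of_ne h0, circ_of_eq h1] at e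
      exact absurd e (OnePoint.coe_ne_infty _)
    · left
      rw [circ_of_ne h0, circ_of_ne h1] at e
      have e1 : cos θ / sin θ = cos θ' / sin θ' := OnePoint.coe_injective e
      rw [div_eq_div_iff h0 h1] at e1
      have e2 : sin (θ - θ') = 0 := by
        rw [sin_sub]
        linarith
      have a1 : 0 < θ := lt_of_le_of_ne h.1 fun h2 => h0 (by rw [← h2, sin_zero])
      have a2 : 0 < θ' := lt_of_le_of_ne h'.1 fun h2 => h1 (by rw [← h2, sin_zero])
      exact sub_eq_zero.mp ((sin_eq_zero_iff_of_lt_of_lt (by linarith [h'.2])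
        (by linarith [h.2])).mp e2)

/-- a section of `circ` -/
def sec (y : Rr.Pt) : ℝ := (circ_surj y).choose

theorem sec_mem (y : Rr.Pt) : sec y ∈ Icc (0 : ℝ) π := (circ_surj y).choose_spec.1

theorem circ_sec (y : Rr.Pt) : circ (sec y) = y := (circ_surj y).choose_spec.2

theorem circ_lift {a : ℝ → ℝ} (h0 : sin (a 0) = 0) (h1 : sin (a π) = 0) {θ : ℝ}
    (h : θ ∈ Icc (0 : ℝ) π) : circ (a (sec (circ θ))) = circ (a θ) := by
  have key : ∀ t ∈ Icc (0 : ℝ) π, sin t = 0 → circ (a t) = ∞ := by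
    intro t ht h2
    rcases end_of_sin ht h2 with rfl | rfl
    · exact circ_of_eq h0
    · exact circ_of_eq h1
  rcases circ_inj (sec_mem (circ θ)) h (circ_sec _) with h2 | ⟨h2, h3⟩
  · rw [h2]
  · rw [key _ (sec_mem _) h2, key _ h h3]

theorem isHtpy_lift {A : unitInterval → ℝ → ℝ} (hA : Continuous (Function.uncurry A))
    (h0 : ∀ t, sin (A t 0) = 0) (h1 : ∀ t, sin (A t π) = 0) :
    IsHtpy (X := Rr) (Y := Rr) fun t y => circ (A t (sec y)) := by
  constructor
  · let c : unitInterval × Icc (0 : ℝ) π → unitInterval × Rr.Pt := fun q => (q.1, circ q.2)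
    have hc : Continuous c :=
      continuous_fst.prodMk (continuous_circ'.comp (continuous_subtype_val.comp continuous_snd))
    have hs : Function.Surjective c := fun q =>
      ⟨(q.1, ⟨sec q.2, sec_mem _⟩), Prod.ext rfl (circ_sec _)⟩
    have hq : IsQuotientMap c := hc.isClosedMap.isQuotientMap hc hs
    rw [hq.continuous_iff]
    have e : Function.uncurry (fun (t : unitInterval) (y : Rr.Pt) => circ (A t (sec y))) ∘ c =
        fun q => circ (A q.1 q.2) := funext fun q => circ_lift (h0 q.1) (h1 q.1) q.2.2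
    rw [e]
    exact continuous_circ'.comp (hA.comp
      (continuous_fst.prodMk (continuous_subtype_val.comp continuous_snd)))
  · intro t
    have h2 : circ 0 = ∞ := circ_of_eq sin_zero
    have h3 := circ_lift (h0 t) (h1 t) (θ := 0) ⟨le_rfl, pi_pos.le⟩
    rw [h2] at h3
    exact h3.trans (circ_of_eq (h0 t))

/-- `a` is a lift of `d` -/
def Lifts (a : ℝ → ℝ) (d : Map Rr Rr) : Prop :=
  ∀ θ ∈ Icc (0 : ℝ) π, d.toFun (circ θ) = circ (a θ)

theorem Lifts.eq {a : ℝ → ℝ} {d : Map Rr Rr} (h : Lifts a d) (y : Rr.Pt) :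
    d.toFun y = circ (a (sec y)) := by
  rw [← h _ (sec_mem y), circ_sec]

theorem exists_lifts {a : ℝ → ℝ} (ha : Continuous a) (h0 : sin (a 0) = 0) (h1 : sin (a π) = 0) :
    ∃ d : Map Rr Rr, Lifts a d := by
  have h := isHtpy_lift (A := fun _ => a) (ha.comp continuous_snd) (fun _ => h0) fun _ => h1
  have h2 : Continuous fun y : Rr.Pt => circ (a (sec y)) :=
    Continuous.uncurry_left (0 : unitInterval) h.1
  refine ⟨⟨fun y => circ (a (sec y)), h2, h.2 0⟩, fun θ hθ => ?_⟩
  exact circ_lift h0 h1 hθ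

theorem Lifts.homotopic {a b : ℝ → ℝ} {d e : Map Rr Rr} (hd : Lifts a d) (he : Lifts b e)
    (ha : Continuous a) (hb : Continuous b) (h0 : sin (a 0) = 0) (h1 : sin (a π) = 0)
    (e0 : b 0 = a 0) (e1 : b π = a π) : St.Homotopic d.toFun e.toFun := by
  refine ⟨_, isHtpy_lift (A := fun t θ => a θ + t * (b θ - a θ)) ?_ (fun t => ?_) fun t => ?_,
    ?_, ?_⟩
  · exact (ha.comp continuous_snd).add ((continuous_subtype_val.comp continuous_fst).mul
      ((hb.comp continuous_snd).sub (ha.comp continuous_snd)))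
  · rw [e0, sub_self, mul_zero, add_zero, h0]
  · rw [e1, sub_self, mul_zero, add_zero, h1]
  · funext y
    rw [hd.eq y]
    simp
  · funext y
    rw [he.eq y]
    simp

theorem exists_isDeg (m : ℕ) : ∃ d : Map Rr Rr, IsDeg m d := by
  obtain ⟨d, hd⟩ := exists_lifts (a := fun θ => m * θ) (continuous_const.mul continuous_id)
    (by simp) (sin_nat_mul_pi m)
  refine ⟨d, fun θ => ?_⟩
  have h1 : θ = toIcoMod pi_pos 0 θ + (toIcoDiv pi_pos 0 θ : ℤ) * π := by
    rw [← zsmul_eq_mul, toIcoMod_add_toIcoDiv_zsmul]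
  have h2 := toIcoMod_mem_Ico pi_pos 0 θ
  rw [zero_add] at h2
  have h3 : (m : ℝ) * θ = m * toIcoMod pi_pos 0 θ + ((m * toIcoDiv pi_pos 0 θ : ℤ) : ℝ) * π := by
    conv_lhs => rw [h1]
    push_cast
    ring
  rw [h3, circ_add_int_mul_pi]
  conv_lhs => rw [h1, circ_add_int_mul_pi]
  exact hd _ ⟨h2.1, h2.2.le⟩

variable {T : SHCat} (S : Susp T)

theorem map_lifts (m : ℕ) : ∀ (a : ℝ → ℝ) (d : Map Rr Rr), Continuous a → a 0 = 0 →
    a π = m * π → Lifts a d → S.map d = (m : ℤ) • 𝟙 (S.obj Rr) := by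
  induction m with
  | zero =>
    intro a d ha h0 h1 hd
    have hz : Lifts (fun _ => 0) (ofHom (X := Rr) (Y := Rr) (0 : RR ⟶ RR)) :=
      fun θ _ => (circ_of_eq sin_zero).symm
    have h2 := hd.homotopic hz ha continuous_const (by rw [h0, sin_zero]) (by simp [h1]) h0.symm
      (by simp [h1])
    rw [S.map_homotopic _ _ H399.fc_Rr H399.fc_Rr h2, Nat.cast_zero, zero_smul]
    exact S.toSpaceFunctor.map_zero (X := RRF) (Y := RRF) (FCat.hom 0) rfl
  | succ m ih =>
    intro a d ha h0 h1 hd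
    have hm : (0 : ℝ) ≤ m * π := mul_nonneg (Nat.cast_nonneg m) pi_pos.le
    have hm1 : (m : ℝ) * π ≤ a π := by
      rw [h1]
      push_cast
      linarith [pi_pos]
    have c1 : Continuous fun θ => min (a θ) (m * π) := ha.min continuous_const
    have c2 : Continuous fun θ => max (a θ) (m * π) - m * π :=
      (ha.max continuous_const).sub continuous_const
    have a0 : min (a 0) (m * π) = 0 := by rw [h0, min_eq_left hm]
    have a1 : min (a π) (m * π) = m * π := min_eq_right hm1
    have b0 : max (a 0) (m * π) - m * π = 0 := by rw [h0, max_eq_right hm, sub_self]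
    have b1 : max (a π) (m * π) - m * π = π := by
      rw [max_eq_left hm1, h1]
      push_cast
      ring
    obtain ⟨u, hu⟩ := exists_lifts c1 (by rw [a0, sin_zero]) (by rw [a1, sin_nat_mul_pi])
    obtain ⟨v, hv⟩ := exists_lifts c2 (by rw [b0, sin_zero]) (by rw [b1, sin_pi])
    have hid : Lifts id (⟨id, continuous_id, rfl⟩ : Map Rr Rr) := fun θ _ => rfl
    have e1 := ih _ u c1 a0 a1 hu
    have e2 : S.map v = 𝟙 (S.obj Rr) := by
      rw [S.map_homotopic _ _ H399.fc_Rr H399.fc_Rr (hv.homotopic hid c2 continuous_id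
        (by rw [b0, sin_zero]) (by rw [b1, sin_pi]) b0.symm b1.symm)]
      exact S.map_id _ H399.fc_Rr rfl
    have key : ∀ y, (v.toFun y = ∞ ∧ d.toFun y = u.toFun y) ∨
        (u.toFun y = ∞ ∧ d.toFun y = v.toFun y) := by
      intro y
      rw [hu.eq, hv.eq, hd.eq]
      rcases le_total (a (sec y)) (m * π) with h | h
      · left
        rw [max_eq_right h, sub_self, min_eq_left h]
        exact ⟨circ_of_eq sin_zero, rfl⟩
      · right
        rw [max_eq_left h, min_eq_right h]
        refine ⟨circ_nat_mul_pi m, ?_⟩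
        rw [← circ_add_int_mul_pi (a (sec y) - m * π) m]
        congr 1
        push_cast
        ring
    have hdis : ∀ y, app (toHom u) y = ∞ ∨ app (toHom v) y = ∞ := fun y =>
      (key y).elim (fun h => Or.inr h.1) fun h => Or.inl h.1
    have e3 : d = ofHom (X := Rr) (Y := Rr) (H241.join (toHom u) (toHom v) hdis) := by
      refine Map.ext fun y => ?_
      rcases key y with h | h
      · exact h.2.trans (H241.joinFun_of_right (f := app (toHom u)) (g := app (toHom v)) h.1).symm
      · exact h.2.trans (H241.joinFun_of_left (f := app (toHom u)) (g := app (toHom v)) h.1).symm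
    have e4 : S.map (ofHom (X := Rr) (Y := Rr) (H241.join (toHom u) (toHom v) hdis)) =
        S.map u + S.map v :=
      H241.map_join S.toSpaceFunctor (X := RRF) (Y := RRF) (toHom u) (toHom v) hdis
    rw [e3, e4, e1, e2, Nat.cast_succ, add_smul, one_smul]

/-- The map of degree `m` induces the multiplication by `m`. -/
theorem map_isDeg {m : ℕ} {d : Map Rr Rr} (h : IsDeg m d) : S.map d = (m : ℤ) • 𝟙 (S.obj Rr) :=
  map_lifts S m (fun θ => m * θ) d (continuous_const.mul continuous_id) (mul_zero _) rfl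
    fun θ _ => h θ

end Vale.Agent.P241Z
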