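import Vale.Agent.P241Z.Mul
import Vale.Agent.P251.X.Split
import Mathlib.CategoryTheory.Idempotents.FunctorExtension

/-!
# P241, genuine `G`-spectra: existence of the geometric fixed point functors
-/

open CategoryTheory MonoidalCategory OnePoint Limits

noncomputable section

namespace Vale.Agent.P241Z

open Vale.Agent.P251 Vale.Agent.P251.St Vale.Agent.P241.St Vale.Agent.P241 Vale.Agent.P251.G
open Vale.Agent.P251.G.LC Vale.Agent.P241.Geo Vale.Agent.P251.S Vale.Agent.P093.PLoc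

/-! ### the fixed points of the regular representation -/

variable {G : Type} [Group G] [Finite G] (H : Subgroup G)

/-- the fixed points of the regular representation -/
def regFix : (G ⧸ H → ℝ) ≃ₜ ((reg G).fix H).carrier where
  toFun y := ⟨fun g => y (g⁻¹ : G), fun h => funext fun g => by
    change y (((h : G)⁻¹ * g)⁻¹ : G) = y (g⁻¹ : G)
    rw [mul_inv_rev, inv_inv, QuotientGroup.mk_mul_of_mem _ h.2]⟩
  invFun x := fun q => x.1 q.out⁻¹
  left_inv y := funext fun q => by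
    change y ((q.out⁻¹)⁻¹ : G) = y q
    rw [inv_inv, QuotientGroup.out_eq']
  right_inv x := Subtype.ext (funext fun g => by
    obtain ⟨h, hh⟩ := QuotientGroup.mk_out_eq_mul H g⁻¹
    change x.1 ((g⁻¹ : G) : G ⧸ H).out⁻¹ = x.1 g
    rw [hh, mul_inv_rev, inv_inv]
    exact congrFun (x.2 h) g)
  continuous_toFun := (isClosedEmbedding_fix (reg G) H).isEmbedding.continuous_iff.mpr
    (continuous_pi fun g => continuous_apply ((g⁻¹ : G) : G ⧸ H))
  continuous_invFun := continuous_pi fun q =>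
    (continuous_apply (q.out⁻¹ : G)).comp (isClosedEmbedding_fix (reg G) H).continuous

variable {T : SHCat} (S : Susp T)

/-- the suspension spectrum of the fixed points of `ρ` -/
def regSph : S.obj ((reg G).fix H) ≅ (𝟙_ T.C)⟦(H.index : ℤ)⟧ :=
  S.fun'.mapIso (M.fcIso (X := ⟨fixL (reg G) H, fc_toLC (fc_fix gfc_reg H)⟩)
    (Y := I.SphF H.index) (ofHomeo ((regFix H).symm.trans
      (Homeomorph.piCongrLeft (Y := fun _ => ℝ) (Finite.equivFin (G ⧸ H)))))) ≪≫
    M.sphIso S.toSpaceFunctor H.index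

/-- the suspension spectrum of the fixed points of `ρ ⊕ ℝ` -/
def regLineSph : S.obj ((regLine G).fix H) ≅ (𝟙_ T.C)⟦((H.index + 1 : ℕ) : ℤ)⟧ :=
  (fixMul S H (regF G) (lineF G)).symm ≪≫
    tensorIso (regSph H S) ((fixLine S H).symm ≪≫ H399.lineI S) ≪≫ tensorSph 1 _ ≪≫
    (shiftFunctorAdd' T.C (H.index : ℤ) 1 ((H.index + 1 : ℕ) : ℤ) (by push_cast; ring)).symm.app _

variable (G) in
/-- `ρ ⊕ ℝ` as a finite `G`-cell space -/
abbrev regLineF : GFin G := ⟨regLine G, gfc_regLine⟩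

/-- the fixed points of a suspension -/
def fixSusp (X : GFin G) : S.obj ((X.sp.prod (regLine G)).fix H) ≅
    (S.obj (X.sp.fix H))⟦((H.index + 1 : ℕ) : ℤ)⟧ :=
  (fixMul S H X (regLineF G)).symm ≪≫ whiskerLeftIso _ (regLineSph H S) ≪≫ tensorSph _ _

theorem fixSusp_naturality {X Y : GFin G} (f : X ⟶ Y) :
    S.map (fixM ((susp G).map f) H) ≫ (fixSusp H S Y).hom =
      (fixSusp H S X).hom ≫ (S.map (fixM f H))⟦((H.index + 1 : ℕ) : ℤ)⟧' := by
  have h1 := fixMul_naturality S H f (𝟙 (regLineF G))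
  rw [map_fixM_id, MonoidalCategory.tensorHom_id, ← Iso.eq_inv_comp] at h1
  refine (congrArg (· ≫ (fixSusp H S Y).hom) h1).trans ?_
  change ((fixMul S H X (regLineF G)).inv ≫ S.map (fixM f H) ▷ S.obj ((regLineF G).sp.fix H) ≫
      (fixMul S H Y (regLineF G)).hom) ≫ (fixMul S H Y (regLineF G)).inv ≫
      _ ◁ (regLineSph H S).hom ≫ (tensorSph _ _).hom =
    ((fixMul S H X (regLineF G)).inv ≫ _ ◁ (regLineSph H S).hom ≫ (tensorSph _ _).hom) ≫ _
  simp only [Category.assoc, Iso.hom_inv_id_assoc]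
  rw [← whisker_exchange_assoc, tensorSph_naturality]

end Vale.Agent.P241Z

namespace Vale.Agent.P241Y

open Vale.Agent.P251 Vale.Agent.P251.St Vale.Agent.P241.St Vale.Agent.P241 Vale.Agent.P251.G
open Vale.Agent.P251.G.LC Vale.Agent.P241.Geo Vale.Agent.P251.S Vale.Agent.P093.PLoc P241Z

/-! ### `p`-localisations -/

section ploc

variable {T : SHCat} {p : ℕ}

theorem IsPLoc.iso_comp {A A' B : T.C} (e : A' ⟶ A) [IsIso e] {f : A ⟶ B} (h : IsPLoc p f) :
    IsPLoc p (e ≫ f) := by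
  refine ⟨h.1, fun Z hZ => ?_⟩
  have h1 : (fun g : B ⟶ Z => (e ≫ f) ≫ g) = (fun g : A ⟶ Z => e ≫ g) ∘ fun g => f ≫ g :=
    funext fun g => Category.assoc _ _ _
  rw [h1]
  exact ((asIso e).symm.homFromEquiv.bijective).comp (h.2 Z hZ)

theorem IsPLoc.comp_iso {A B B' : T.C} {f : A ⟶ B} (h : IsPLoc p f) (e : B ≅ B') :
    IsPLoc p (f ≫ e.hom) := by
  refine ⟨IsPLocal.of_iso h.1 e, fun Z hZ => ?_⟩
  have h1 : (fun g : B' ⟶ Z => (f ≫ e.hom) ≫ g) =
      (fun g : B ⟶ Z => f ≫ g) ∘ fun g => e.hom ≫ g := funext fun g => Category.assoc _ _ _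
  rw [h1]
  exact (h.2 Z hZ).comp e.symm.homFromEquiv.bijective

theorem IsPLoc.shift {A B : T.C} {f : A ⟶ B} (h : IsPLoc p f) (n : ℤ) : IsPLoc p (f⟦n⟧') := by
  refine ⟨IsPLocal.shift h.1 n, fun Z hZ => ?_⟩
  let adj := (shiftEquiv T.C n).toAdjunction
  have h1 : (fun g : B⟦n⟧ ⟶ Z => f⟦n⟧' ≫ g) = (adj.homEquiv A Z).symm ∘
      (fun g : B ⟶ Z⟦-n⟧ => f ≫ g) ∘ adj.homEquiv B Z := by
    funext g
    exact ((adj.homEquiv A Z).eq_symm_apply).mpr (adj.homEquiv_naturality_left f g)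
  rw [h1]
  exact (adj.homEquiv A Z).symm.bijective.comp
    ((h.2 _ (IsPLocal.shift hZ (-n))).comp (adj.homEquiv B Z).bijective)

theorem isPLoc_etaX (hp : p ≠ 1) (A : T.C) : IsPLoc p (etaX p A) :=
  ⟨isPLocal_Sp_tensor hp A, fun _ hZ => IsPLocal.bijective' hZ⟩

end ploc

/-! ### the two forms of the comparison maps -/

variable {G : Type} [Group G] [Finite G] {T : SHCat} (S : Susp T) (p : ℕ) (H : Subgroup G)

/-- the smash product with a sphere is a shift -/
def tenSph (n : ℕ) (Z : T.C) : Z ⊗ S.obj (Rn n) ≅ Z⟦(n : ℤ)⟧ :=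
  whiskerLeftIso Z (M.sphIso S.toSpaceFunctor n) ≪≫ tensorSph _ _

theorem tenSph_naturality (n : ℕ) {Y Z : T.C} (f : Y ⟶ Z) :
    (f ⊗ₘ 𝟙 (S.obj (Rn n))) ≫ (tenSph S n Z).hom = (tenSph S n Y).hom ≫ f⟦(n : ℤ)⟧' := by
  have h : ∀ {E : T.C} (e : E ⟶ (𝟙_ T.C)⟦(n : ℤ)⟧),
      (f ⊗ₘ 𝟙 E) ≫ Z ◁ e ≫ (tensorSph (n : ℤ) Z).hom =
        (Y ◁ e ≫ (tensorSph (n : ℤ) Y).hom) ≫ f⟦(n : ℤ)⟧' := by
    intro E e
    rw [MonoidalCategory.tensorHom_id, ← whisker_exchange_assoc, tensorSph_naturality,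
      Category.assoc]
  exact h _

/-- the comparison maps with values in shifts -/
def IsFixS (F : Fr G ⥤ T.C) (d : ℕ) : Prop :=
  ∃ θ : ∀ A : Ob G, (fixF S H).obj (gf A) ⟶ (F.obj A)⟦((A.k * d : ℕ) : ℤ)⟧,
    (∀ A, IsPLoc p (θ A)) ∧ ∀ (X Y : GFin G) (k : ℕ) (f : X ⟶ Y),
      (fixF S H).map f ≫ θ (mkOb Y k) = θ (mkOb X k) ≫
        (F.map (one (A := mkOb X k) (B := mkOb Y k) (.map (toY f) rfl)))⟦((k * d : ℕ) : ℤ)⟧'

theorem isFix_iff (F : Fr G ⥤ T.C) (d : ℕ) :
    IsFix S p H F (fun k => S.obj (Rn (k * d))) ↔ IsFixS S p H F d := by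
  constructor
  · rintro ⟨θ, h1, h2⟩
    refine ⟨fun A => θ A ≫ (tenSph S (A.k * d) (F.obj A)).hom, fun A => (h1 A).comp_iso _,
      fun X Y k f => ?_⟩
    have h3 := h2 X.sp Y.sp (mkOb X k).fin (mkOb Y k).fin k (toY f) (fixM f H) (fixM_spec f H)
    have h4 := tenSph_naturality S (k * d)
      (F.map (one (A := mkOb X k) (B := mkOb Y k) (.map (toY f) rfl)))
    exact (Category.assoc _ _ _).symm.trans ((congrArg (· ≫ _) h3).trans
      ((Category.assoc _ _ _).trans ((congrArg (_ ≫ ·) h4).trans (Category.assoc _ _ _).symm)))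
  · rintro ⟨θ, h1, h2⟩
    refine ⟨fun A => θ A ≫ (tenSph S (A.k * d) (F.obj A)).symm.hom, fun A => (h1 A).comp_iso _,
      fun X Y a b k f g hg => ?_⟩
    let X' : GFin G := ⟨X, gCell_iff.mp a⟩
    let Y' : GFin G := ⟨Y, gCell_iff.mp b⟩
    have h3 := h2 X' Y' k (toZ f)
    have h4 := tenSph_naturality S (k * d)
      (F.map (one (A := mkOb X' k) (B := mkOb Y' k) (.map f rfl)))
    rw [← Iso.eq_comp_inv, Category.assoc, ← Iso.inv_comp_eq] at h4
    have h5 : g = fixM (X := X') (Y := Y') (toZ f) H :=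
      map_ext (hg.uniq H (fixM_spec (X := X') (Y := Y') (toZ f) H))
    subst h5
    exact (Category.assoc _ _ _).symm.trans ((congrArg (· ≫ _) h3).trans
      ((Category.assoc _ _ _).trans ((congrArg (_ ≫ ·) h4.symm).trans
        (Category.assoc _ _ _).symm)))

/-! ### the functor on generators -/

/-- the fixed points of a suspension -/
def fixSus (X : GFin G) :
    (fixF S H).obj ((susp G).obj X) ≅ ((fixF S H).obj X)⟦((H.index + 1 : ℕ) : ℤ)⟧ :=
  fixSusp H S X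

theorem fixSus_naturality {X Y : GFin G} (f : X ⟶ Y) :
    ((fixF S H).map f)⟦((H.index + 1 : ℕ) : ℤ)⟧' ≫ (fixSus S H Y).inv =
      (fixSus S H X).inv ≫ (fixF S H).map ((susp G).map f) := by
  rw [Iso.comp_inv_eq, Category.assoc, Iso.eq_inv_comp]
  exact (fixSusp_naturality H S f).symm

section gen

variable (E : ℕ → T.C ⥤ T.C)
  (τ : ∀ k, E k ≅ shiftFunctor T.C ((H.index + 1 : ℕ) : ℤ) ⋙ E (k + 1))

/-- the image of a generator of the first kind -/
def genMap {A B : Ob G} (f : GMap A.sp B.sp) (h : B.k = A.k) :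
    (E A.k).obj ((fixF S H).obj (gf A)) ⟶ (E B.k).obj ((fixF S H).obj (gf B)) :=
  (E A.k).map ((fixF S H).map (X := gf A) (Y := gf B) (toZ f)) ≫ eqToHom (by rw [h])

/-- the image of a generator of the second kind -/
def genUp {A B : Ob G} (u : GMap (A.sp.prod (regLine G)) B.sp) (h : B.k = A.k + 1) :
    (E A.k).obj ((fixF S H).obj (gf A)) ⟶ (E B.k).obj ((fixF S H).obj (gf B)) :=
  (τ A.k).hom.app _ ≫ (E (A.k + 1)).map ((fixSus S H (gf A)).inv ≫
    (fixF S H).map (X := (susp G).obj (gf A)) (Y := gf B) (toZ u)) ≫ eqToHom (by rw [h])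

/-- the functor on the free category -/
def freeF : Fr G ⥤ T.C :=
  Paths.lift (V := Ob G)
    { obj A := (E A.k).obj ((fixF S H).obj (gf A))
      map e := match e with
        | .map f h => genMap S H E f h
        | .up u h => genUp S H E τ u h }

theorem freeF_map {A B : Ob G} (f : GMap A.sp B.sp) (h : B.k = A.k) :
    (freeF S H E τ).map (one (.map f h)) = genMap S H E f h := Category.id_comp _

theorem freeF_up {A B : Ob G} (u : GMap (A.sp.prod (regLine G)) B.sp) (h : B.k = A.k + 1) :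
    (freeF S H E τ).map (one (.up u h)) = genUp S H E τ u h := Category.id_comp _

theorem freeF_two {A B C : Ob G} (e : Edge A B) (e' : Edge B C) :
    (freeF S H E τ).map (two e e') =
      (freeF S H E τ).map (one e) ≫ (freeF S H E τ).map (one e') :=
  (freeF S H E τ).map_comp (one e) (one e')

theorem genMap_eq {X Y : GSpace G} (a b k) (f : GMap X Y) (h) :
    genMap S H E (A := ⟨X, a, k⟩) (B := ⟨Y, b, k⟩) f h =
      (E k).map ((fixF S H).map (X := gf ⟨X, a, k⟩) (Y := gf ⟨Y, b, k⟩) (toZ f)) :=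
  Category.comp_id _

theorem genUp_eq {X Y : GSpace G} (a b k) (u : GMap (X.prod (regLine G)) Y) (h) :
    genUp S H E τ (A := ⟨X, a, k⟩) (B := ⟨Y, b, k + 1⟩) u h =
      (τ k).hom.app _ ≫ (E (k + 1)).map ((fixSus S H (gf ⟨X, a, k⟩)).inv ≫
        (fixF S H).map (X := (susp G).obj (gf ⟨X, a, k⟩)) (Y := gf ⟨Y, b, k + 1⟩) (toZ u)) :=
  congrArg (_ ≫ ·) (Category.comp_id _)

theorem nat_aux {X Y X' Y' : GFin G} (k : ℕ) (f : X ⟶ Y) (u : (susp G).obj Y ⟶ Y')
    (u' : (susp G).obj X ⟶ X') (f' : X' ⟶ Y') (h : (susp G).map f ≫ u = u' ≫ f') :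
    (E k).map ((fixF S H).map f) ≫ (τ k).hom.app _ ≫
      (E (k + 1)).map ((fixSus S H Y).inv ≫ (fixF S H).map u) =
    ((τ k).hom.app _ ≫ (E (k + 1)).map ((fixSus S H X).inv ≫ (fixF S H).map u')) ≫
      (E (k + 1)).map ((fixF S H).map f') := by
  rw [(τ k).hom.naturality_assoc, Category.assoc, ← Functor.map_comp]
  refine congrArg (_ ≫ ·) (((E _).map_comp _ _).symm.trans (congrArg (E _).map ?_))
  rw [← Category.assoc, fixSus_naturality, Category.assoc, Category.assoc, ← Functor.map_comp,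
    ← Functor.map_comp, h]

theorem freeF_rel {A B : Ob G} {x y : Quiver.Path A B} (h : Rel x y) :
    (freeF S H E τ).map x = (freeF S H E τ).map y := by
  cases h with
  | id f a hf =>
    obtain ⟨X, a', k⟩ := A
    have h1 : toZ f = 𝟙 (gf ⟨X, a', k⟩) := ghom_ext (X := gf ⟨X, a', k⟩) (Y := gf ⟨X, a', k⟩) hf
    rw [freeF_map, genMap_eq, h1, CategoryTheory.Functor.map_id, CategoryTheory.Functor.map_id]
    rfl
  | @comp C _ f g h a b c hh =>
    obtain ⟨X, a', k⟩ := A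
    obtain ⟨Y, b', k₁⟩ := C
    obtain ⟨Z, c', k₂⟩ := B
    cases a
    cases b
    rw [freeF_two, freeF_map, freeF_map, freeF_map, genMap_eq, genMap_eq, genMap_eq]
    exact ((E _).map_comp _ _).symm.trans (congrArg (E _).map
      (((fixF S H).map_comp _ _).symm.trans (fixF_homotopic S H hh)))
  | @nat C A' _ f u u' f' a b c d hh =>
    obtain ⟨X, a', k⟩ := A
    obtain ⟨Y, b', k₁⟩ := C
    obtain ⟨X', c', k₂⟩ := A'
    obtain ⟨Y', d', k₃⟩ := B
    cases a
    cases b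
    cases c
    rw [freeF_two, freeF_two, freeF_map, freeF_map, freeF_up, freeF_up, genMap_eq, genMap_eq,
      genUp_eq, genUp_eq]
    refine nat_aux S H E τ (X := gf ⟨X, a', k⟩) (Y := gf ⟨Y, b', k⟩) (X' := gf ⟨X', c', k + 1⟩)
      (Y' := gf ⟨Y', d', k + 1⟩) k (toZ f) (toZ u) (toZ u') (toZ f')
      (ghom_ext (funext fun z => ?_))
    obtain ⟨x, y, rfl⟩ := smash_surj (X := X.und) (Y := (regLine G).und) z
    refine Eq.trans (congrArg u.fn ?_) (hh x y)
    exact smashFun_smash (X := X.und) (X' := Y.und) (g := id) f.pt rfl x y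

theorem isIso_genUp {A B : Ob G} (u : GMap (A.sp.prod (regLine G)) B.sp) (h : B.k = A.k + 1)
    (hu : Function.Bijective u.fn) : IsIso (genUp S H E τ u h) := by
  have := isIso_of_bijective (X := (susp G).obj (gf A)) (Y := gf B) (toZ u) hu
  have h1 : IsIso ((E (A.k + 1)).map ((fixSus S H (gf A)).inv ≫
      (fixF S H).map (X := (susp G).obj (gf A)) (Y := gf B) (toZ u))) := inferInstance
  exact @IsIso.comp_isIso _ _ _ _ _ _ _ ((τ A.k).app _).isIso_hom
    (@IsIso.comp_isIso _ _ _ _ _ _ _ h1 inferInstance)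

end gen

variable {p}

/-- **Geometric fixed point functors exist.** -/
theorem exists_isGeomFix (hp : p ≠ 1) : ∃ Φ : FinSp G p ⥤ T.C, IsGeomFix S H Φ := by
  let d : ℕ := H.index + 1
  let E : ℕ → T.C ⥤ T.C := fun k =>
    shiftFunctor T.C (-((k * d : ℕ) : ℤ)) ⋙ tensorLeft (Sp T.C p)
  let τ : ∀ k, E k ≅ shiftFunctor T.C (d : ℤ) ⋙ E (k + 1) := fun k =>
    Functor.isoWhiskerRight (shiftFunctorAdd' T.C (d : ℤ) (-(((k + 1) * d : ℕ) : ℤ))
      (-((k * d : ℕ) : ℤ)) (by push_cast; ring)) (tensorLeft (Sp T.C p)) ≪≫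
      Functor.associator _ _ _
  let Φ₂ : Gr G ⥤ T.C := CategoryTheory.Quotient.lift (C := Fr G) (@Rel G _ _) (freeF S H E τ)
    fun _ _ _ _ h => freeF_rel S H E τ h
  have hinv : (W G p).IsInvertedBy Φ₂ := by
    rintro _ _ _ ⟨h⟩
    cases h with
    | up u h hu =>
      exact (congrArg IsIso (freeF_up S H E τ u h)).mpr (isIso_genUp S H E τ u h hu)
    | @deg X h k m e f hX hm he hf =>
      change IsIso ((freeF S H E τ).map (one (.map f rfl)))
      have h1 := fixF_deg S H he ⟨X, gCell_iff.mp hX⟩ (toZ f) hf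
      rw [freeF_map, genMap_eq]
      refine (congrArg (fun z => IsIso ((E k).map z)) h1).mpr ?_
      change IsIso (Sp T.C p ◁ ((m : ℤ) • 𝟙 _)⟦-((k * d : ℕ) : ℤ)⟧')
      rw [Functor.map_zsmul, CategoryTheory.Functor.map_id, whiskerLeft_zsmul,
        MonoidalCategory.whiskerLeft_id]
      exact isPLocal_Sp_tensor hp _ m hm
  have : IsIdempotentComplete T.C := ⟨fun _ e he => X.exists_split e he⟩
  let Φ₃ : Loc G p ⥤ T.C := Localization.Construction.lift Φ₂ hinv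
  let Q := (Functor.whiskeringLeft _ _ T.C).obj (Idempotents.toKaroubi (Loc G p))
  let Ψ : FinSp G p ⥤ T.C := Q.objPreimage Φ₃
  let e₀ : Idempotents.toKaroubi _ ⋙ Ψ ≅ Φ₃ := Q.objObjPreimageIso Φ₃
  have e₁ : toGr G ⋙ (W G p).Q ⋙ Φ₃ = freeF S H E τ := by
    have h1 : (W G p).Q ⋙ Φ₃ = Φ₂ := Localization.Construction.fac Φ₂ hinv
    rw [h1]
    exact CategoryTheory.Quotient.lift_spec _ _ _
  let e : toFin G p ⋙ Ψ ≅ freeF S H E τ :=
    Functor.isoWhiskerLeft (toGr G ⋙ (W G p).Q) e₀ ≪≫ eqToIso e₁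
  refine ⟨Ψ, (isFix_iff S p H _ d).mpr ⟨fun A =>
    (shiftNegShift ((fixF S H).obj (gf A)) ((A.k * d : ℕ) : ℤ)).inv ≫
      (etaX p _ ≫ (e.app A).symm.hom)⟦((A.k * d : ℕ) : ℤ)⟧',
    fun A => IsPLoc.iso_comp _ (((isPLoc_etaX hp _).comp_iso (e.app A).symm).shift _),
    fun X Y k f => ?_⟩⟩
  have h1 := (shiftFunctorCompIsoId T.C (-((k * d : ℕ) : ℤ)) ((k * d : ℕ) : ℤ)
    (neg_add_cancel _)).inv.naturality ((fixF S H).map f)
  have h2 := e.inv.naturality (X := mkOb X k) (Y := mkOb Y k)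
    (one (A := mkOb X k) (B := mkOb Y k) (.map (toY f) rfl))
  rw [freeF_map, genMap_eq] at h2
  have h3 : ((fixF S H).map f)⟦-((k * d : ℕ) : ℤ)⟧' ≫ etaX p _ ≫ (e.app (mkOb Y k)).symm.hom =
      (etaX p _ ≫ (e.app (mkOb X k)).symm.hom) ≫ (toFin G p ⋙ Ψ).map
        (one (A := mkOb X k) (B := mkOb Y k) (.map (toY f) rfl)) := by
    exact (etaX_naturality_assoc p _ _).trans
      ((congrArg (etaX p _ ≫ ·) h2).trans (Category.assoc _ _ _).symm)
  refine (Category.assoc _ _ _).symm.trans ((congrArg (· ≫ _) h1).trans ?_)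
  refine (Category.assoc _ _ _).trans (Eq.trans (congrArg (_ ≫ ·) ?_) (Category.assoc _ _ _).symm)
  exact ((shiftFunctor T.C _).map_comp _ _).symm.trans
    ((congrArg (shiftFunctor T.C _).map h3).trans ((shiftFunctor T.C _).map_comp _ _))

end Vale.Agent.P241Y
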