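import Vale.Agent.P241.H399.Closed
import Vale.Agent.P241.H32.Triv
import Vale.Agent.P241.H399.TCone
import Mathlib.Algebra.Group.Pointwise.Set.Card
import Mathlib.Topology.MetricSpace.Lipschitz
import Mathlib.Analysis.SpecialFunctions.Log.Basic
import Mathlib.Topology.LocallyClosed

/-!
# P241: permutation representations are finite `G`-cell spaces

For a finite `G`-set `I` the space of functions `I → ℝ` is a finite `G`-cell space. The proof is
an induction over families of coordinate subspaces indexed by a finite `G`-set `B`.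
-/

open Set Topology Filter
open scoped Pointwise

set_option linter.unusedSectionVars false

noncomputable section

namespace Vale.Agent.P241Z

open Vale.Agent.P251.St Vale.Agent.P241.St Vale.Agent.P241

variable {G : Type} [Group G]

/-- an invariant locally closed subset of a `G`-space -/
def sub (X : GSpace G) (s : Set X.carrier) (hs : IsLocallyClosed s)
    (hG : ∀ (g : G) (x : X.carrier), x ∈ s → g • x ∈ s) : GSpace G :=
  letI : MulAction G s :=
    { smul := fun g x => ⟨g • x.1, hG g x.1 x.2⟩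
      one_smul := fun x => Subtype.ext (one_smul G x.1)
      mul_smul := fun g h x => Subtype.ext (mul_smul g h x.1) }
  haveI : LocallyCompactSpace s := hs.locallyCompactSpace
  haveI : ContinuousConstSMul G s :=
    ⟨fun g => ((continuous_const_smul g).comp continuous_subtype_val).subtype_mk _⟩
  ⟨s⟩

/-- functions on a finite set -/
def Fn (I : Type) : Type := I → ℝ

noncomputable instance (I : Type) [Fintype I] : MetricSpace (Fn I) :=
  inferInstanceAs (MetricSpace (I → ℝ))

instance (I : Type) [Fintype I] : LocallyCompactSpace (Fn I) :=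
  inferInstanceAs (LocallyCompactSpace (I → ℝ))

/-- the value of a function -/
def Fn.ev {I : Type} (x : Fn I) (i : I) : ℝ := x i

/-- a function -/
def Fn.mk {I : Type} (x : I → ℝ) : Fn I := x

variable {I : Type} [Fintype I]

omit [Fintype I] in
@[simp] theorem Fn.ev_mk (x : I → ℝ) (i : I) : (Fn.mk x).ev i = x i := rfl

omit [Fintype I] in
@[ext] theorem Fn.ext {x y : Fn I} (h : ∀ i, x.ev i = y.ev i) : x = y := funext h

theorem Fn.continuous_ev (i : I) : Continuous fun x : Fn I => x.ev i := continuous_apply i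

theorem Fn.continuous_mk {P : Type} [TopologicalSpace P] {f : P → I → ℝ}
    (h : ∀ i, Continuous fun p => f p i) : Continuous fun p => Fn.mk (f p) := continuous_pi h

theorem Fn.ev_le (x y : Fn I) (i : I) : x.ev i ≤ y.ev i + dist x y := by
  have h : dist (x.ev i) (y.ev i) ≤ dist x y := dist_le_pi_dist (X := fun _ : I => ℝ) x y i
  rw [Real.dist_eq] at h
  linarith [le_abs_self (x.ev i - y.ev i)]

theorem Fn.isCompact_box (R : ℝ) : IsCompact {x : Fn I | ∀ i, x.ev i ∈ Icc (-R) R} := by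
  have h : IsCompact (Set.pi univ fun _ : I => Icc (-R) R) :=
    isCompact_univ_pi fun _ => isCompact_Icc
  have e : {x : Fn I | ∀ i, x.ev i ∈ Icc (-R) R} = Set.pi univ fun _ : I => Icc (-R) R := by
    ext x
    exact ⟨fun h i _ => h i, fun h i => h i trivial⟩
  rw [e]
  exact h

theorem Fn.exists_bound {K : Set (Fn I)} (hK : IsCompact K) :
    ∃ R : ℝ, ∀ x ∈ K, ∀ i, x.ev i ≤ R := by
  obtain ⟨R, hR⟩ := hK.isBounded.subset_closedBall (Fn.mk fun _ => 0)
  refine ⟨R, fun x hx i => ?_⟩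
  have h1 := Fn.ev_le x (Fn.mk fun _ => 0) i
  have h2 : dist x (Fn.mk fun _ => 0) ≤ R := hR hx
  rw [Fn.ev_mk] at h1
  linarith

variable [MulAction G I]

instance : MulAction G (Fn I) where
  smul g x := Fn.mk fun i => x.ev (g⁻¹ • i)
  one_smul x := Fn.ext fun i => by
    change x.ev ((1 : G)⁻¹ • i) = x.ev i
    rw [inv_one, one_smul]
  mul_smul g h x := Fn.ext fun i => by
    change x.ev ((g * h)⁻¹ • i) = x.ev (h⁻¹ • g⁻¹ • i)
    rw [mul_inv_rev, mul_smul]

@[simp] theorem Fn.ev_smul (g : G) (x : Fn I) (i : I) : (g • x).ev i = x.ev (g⁻¹ • i) := rfl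

instance : ContinuousConstSMul G (Fn I) :=
  ⟨fun g => Fn.continuous_mk fun i => Fn.continuous_ev (g⁻¹ • i)⟩

theorem Fn.sep_smul (g : G) (x : Fn I) (P : ℝ → Prop) :
    {i | P ((g • x).ev i)} = g • {i | P (x.ev i)} := by
  ext i
  rw [Set.mem_smul_set_iff_inv_smul_mem]
  rfl

/-! ### the level of a function -/

section level

variable (r : ℕ)

/-- the numbers `s ≥ 0` which are exceeded by at most `r` values -/
def lvSet (x : Fn I) : Set ℝ := {s | 0 ≤ s ∧ {i | s < x.ev i}.ncard ≤ r}

/-- the least such number -/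
noncomputable def lv (x : Fn I) : ℝ := sInf (lvSet r x)

theorem lvSet_nonempty (x : Fn I) : (lvSet r x).Nonempty := by
  obtain ⟨R, hR⟩ := Fn.exists_bound (isCompact_singleton (x := x))
  refine ⟨max R 0, le_max_right _ _, ?_⟩
  have h : {i | max R 0 < x.ev i} = ∅ := by
    ext i
    simp only [mem_ofPred_eq, mem_empty_iff_false, iff_false, not_lt]
    exact (hR x rfl i).trans (le_max_left _ _)
  rw [h, ncard_empty]
  exact Nat.zero_le _

omit [Fintype I] in
theorem lvSet_bdd (x : Fn I) : BddBelow (lvSet r x) := ⟨0, fun _ h => h.1⟩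

theorem lv_nonneg (x : Fn I) : 0 ≤ lv r x := le_csInf (lvSet_nonempty r x) fun _ h => h.1

theorem lv_mem (x : Fn I) : {i | lv r x < x.ev i}.ncard ≤ r := by
  by_cases he : {i | lv r x < x.ev i} = ∅
  · rw [he, ncard_empty]
    exact Nat.zero_le _
  obtain ⟨j, hj, hmin⟩ := Set.exists_min_image {i | lv r x < x.ev i} x.ev (toFinite _)
    (nonempty_iff_ne_empty.mpr he)
  obtain ⟨s, hs, hlt⟩ := exists_lt_of_csInf_lt (lvSet_nonempty r x) hj
  refine le_trans (ncard_le_ncard ?_ (toFinite _)) hs.2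
  intro i hi
  exact lt_of_lt_of_le hlt (hmin i hi)

theorem lv_eq_zero {x : Fn I} (h : {i | 0 < x.ev i}.ncard ≤ r) : lv r x = 0 :=
  le_antisymm (csInf_le (lvSet_bdd r x) ⟨le_rfl, h⟩) (lv_nonneg r x)

theorem continuous_lv : Continuous (lv (I := I) r) := by
  refine (LipschitzWith.of_le_add fun x y => ?_).continuous
  rw [← sub_le_iff_le_add]
  refine le_csInf (lvSet_nonempty r y) fun s hs => ?_
  rw [sub_le_iff_le_add]
  refine csInf_le (lvSet_bdd r x) ⟨add_nonneg hs.1 dist_nonneg, ?_⟩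
  refine le_trans (ncard_le_ncard ?_ (toFinite _)) hs.2
  intro i hi
  have h1 := Fn.ev_le x y i
  have h2 : s + dist x y < x.ev i := hi
  change s < y.ev i
  linarith

theorem lv_smul (g : G) (x : Fn I) : lv r (g • x) = lv r x := by
  unfold lv
  congr 1
  ext s
  unfold lvSet
  rw [mem_ofPred_eq, mem_ofPred_eq, Fn.sep_smul g x fun t => s < t, ncard_smul_set]

end level

/-! ### families of coordinate subspaces -/

variable (G) in
/-- the ambient space -/
abbrev amb (B : Type) [TopologicalSpace B] [DiscreteTopology B] [MulAction G B] (I : Type)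
    [Fintype I] [MulAction G I] : GSpace G :=
  haveI : LocallyCompactSpace B := lc_of_discrete B
  haveI : ContinuousConstSMul G B := ⟨fun _ => continuous_of_discreteTopology⟩
  ⟨B × Fn I⟩

variable {B : Type} [TopologicalSpace B] [DiscreteTopology B] [MulAction G B]

omit [MulAction G I] [MulAction G B] in
theorem isClosed_fam {P : B → Fn I → Prop} (h : ∀ b, IsClosed {x | P b x}) :
    IsClosed {p : B × Fn I | P p.1 p.2} := by
  rw [← isOpen_compl_iff, isOpen_iff_mem_nhds]
  rintro ⟨b, x⟩ hp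
  rw [nhds_prod_eq, nhds_discrete B]
  have h1 : {y | P b y}ᶜ ∈ 𝓝 x := (h b).isOpen_compl.mem_nhds hp
  filter_upwards [prod_mem_prod (mem_pure.mpr (mem_singleton b)) h1] with q hq
  obtain ⟨h2, h3⟩ := hq
  have h4 : q.1 = b := h2
  intro h5
  apply h3
  rw [← h4]
  exact h5

/-- the coordinate subspaces -/
def vSet (J : B → Set I) : Set (B × Fn I) := {p | ∀ i, i ∉ J p.1 → p.2.ev i = 0}

/-- the nonnegative functions with at most `r` positive values -/
def pSet (J : B → Set I) (r : ℕ) : Set (B × Fn I) :=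
  {p | (∀ i, 0 ≤ p.2.ev i) ∧ (∀ i, i ∉ J p.1 → p.2.ev i = 0) ∧ {i | 0 < p.2.ev i}.ncard ≤ r}

omit [MulAction G I] [MulAction G B] in
theorem isClosed_zero (s : Set I) : IsClosed {x : Fn I | ∀ i, i ∉ s → x.ev i = 0} := by
  have e : {x : Fn I | ∀ i, i ∉ s → x.ev i = 0} = ⋂ i, ⋂ _ : i ∉ s, {x : Fn I | x.ev i = 0} := by
    ext x
    simp only [mem_ofPred_eq, mem_iInter]
  rw [e]
  exact isClosed_iInter fun i => isClosed_iInter fun _ =>
    isClosed_eq (Fn.continuous_ev i) continuous_const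

omit [MulAction G I] [MulAction G B] in
theorem isClosed_vSet (J : B → Set I) : IsClosed (vSet J) :=
  isClosed_fam (P := fun b x => ∀ i, i ∉ J b → x.ev i = 0) fun b => isClosed_zero (J b)

omit [MulAction G I] in
theorem eventually_pos (x : Fn I) : ∀ᶠ y in 𝓝 x, {i | 0 < x.ev i} ⊆ {i | 0 < y.ev i} := by
  have h : ∀ i : I, ∀ᶠ y : Fn I in 𝓝 x, 0 < x.ev i → 0 < y.ev i := by
    intro i
    by_cases hi : 0 < x.ev i
    · exact ((Fn.continuous_ev i).continuousAt.eventually (lt_mem_nhds hi)).mono fun y hy _ => hy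
    · exact Eventually.of_forall fun y h => absurd h hi
  exact (eventually_all.mpr h).mono fun y hy i hi => hy i hi

omit [MulAction G I] in
theorem isClosed_card (r : ℕ) : IsClosed {x : Fn I | {i | 0 < x.ev i}.ncard ≤ r} := by
  rw [← isOpen_compl_iff, isOpen_iff_mem_nhds]
  intro x hx
  refine (eventually_pos x).mono fun y hy h => hx ?_
  exact le_trans (ncard_le_ncard hy (toFinite _)) h

omit [MulAction G I] [MulAction G B] in
theorem isClosed_pSet (J : B → Set I) (r : ℕ) : IsClosed (pSet J r) := by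
  refine isClosed_fam (P := fun b x => (∀ i, 0 ≤ x.ev i) ∧ (∀ i, i ∉ J b → x.ev i = 0) ∧
    {i | 0 < x.ev i}.ncard ≤ r) fun b => ?_
  refine IsClosed.inter ?_ ((isClosed_zero (J b)).inter (isClosed_card r))
  have e : {x : Fn I | ∀ i, 0 ≤ x.ev i} = ⋂ i, {x : Fn I | 0 ≤ x.ev i} := by
    ext x
    simp only [mem_ofPred_eq, mem_iInter]
  change IsClosed {x : Fn I | ∀ i, 0 ≤ x.ev i}
  rw [e]
  exact isClosed_iInter fun i => isClosed_le continuous_const (Fn.continuous_ev i)

variable (G) in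
/-- the family is equivariant -/
def Eqf (J : B → Set I) : Prop := ∀ (g : G) (b : B), J (g • b) = g • J b

variable {J : B → Set I}

omit [TopologicalSpace B] [DiscreteTopology B] in
theorem Eqf.zero (hJ : Eqf G J) (g : G) {b : B} {x : Fn I} (h : ∀ i, i ∉ J b → x.ev i = 0) :
    ∀ i, i ∉ J (g • b) → (g • x).ev i = 0 := by
  intro i hi
  rw [hJ, Set.mem_smul_set_iff_inv_smul_mem] at hi
  exact h _ hi

omit [TopologicalSpace B] [DiscreteTopology B] in
theorem Eqf.vSet (hJ : Eqf G J) (g : G) (p : B × Fn I) (h : p ∈ vSet J) : g • p ∈ vSet J :=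
  hJ.zero g h

omit [TopologicalSpace B] [DiscreteTopology B] in
theorem Eqf.pSet (hJ : Eqf G J) (r : ℕ) (g : G) (p : B × Fn I) (h : p ∈ pSet J r) :
    g • p ∈ pSet J r := by
  refine ⟨fun i => h.1 _, hJ.zero g h.2.1, ?_⟩
  have h1 : {i | 0 < (g • p.2).ev i} = g • {i | 0 < p.2.ev i} := Fn.sep_smul g p.2 fun t => 0 < t
  change {i | 0 < (g • p.2).ev i}.ncard ≤ r
  rw [h1, ncard_smul_set]
  exact h.2.2

/-- the family of coordinate subspaces as a `G`-space -/
abbrev vSp (hJ : Eqf G J) : GSpace G :=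
  sub (amb G B I) (vSet J) (isClosed_vSet J).isLocallyClosed hJ.vSet

/-- the family of cones as a `G`-space -/
abbrev pSp (hJ : Eqf G J) (r : ℕ) : GSpace G :=
  sub (amb G B I) (pSet J r) (isClosed_pSet J r).isLocallyClosed (hJ.pSet r)

omit [TopologicalSpace B] [DiscreteTopology B] in
theorem Eqf.oSet (hJ : Eqf G J) (r : ℕ) (g : G) (p : B × Fn I)
    (h : p ∈ P241Z.pSet J (r + 1) \ P241Z.pSet J r) :
    g • p ∈ P241Z.pSet J (r + 1) \ P241Z.pSet J r :=
  ⟨hJ.pSet _ g p h.1, fun h' => h.2 (by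
    have h2 := hJ.pSet r g⁻¹ _ h'
    rwa [inv_smul_smul] at h2)⟩

/-- the open stratum as a `G`-space -/
abbrev oSp (hJ : Eqf G J) (r : ℕ) : GSpace G :=
  sub (amb G B I) (pSet J (r + 1) \ pSet J r)
    (IsLocallyClosed.inter (isClosed_pSet J (r + 1)).isLocallyClosed
      (isClosed_pSet J r).isOpen_compl.isLocallyClosed) (hJ.oSet r)

/-- a family of points -/
theorem gfc_points [Finite B] {s : Set (B × Fn I)} (hs : IsLocallyClosed s)
    (hG : ∀ (g : G) (x : (amb G B I).carrier), x ∈ s → g • x ∈ s)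
    (h : ∀ p : B × Fn I, p ∈ s ↔ p.2 = Fn.mk fun _ => 0) : GFC G (sub (amb G B I) s hs hG) := by
  refine H32.gfc_of_homeo (H32.gfc_finset B 0)
    { toFun := fun p => ⟨(p.1, Fn.mk fun _ => 0), (h _).mpr rfl⟩
      invFun := fun p => (p.1.1, fun i => i.elim0)
      left_inv := fun p => Prod.ext rfl (funext fun i => i.elim0)
      right_inv := fun p => Subtype.ext (Prod.ext rfl ((h _).mp p.2).symm)
      continuous_toFun := ?_
      continuous_invFun := ?_ } fun g p => Subtype.ext (Prod.ext rfl rfl)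
  · refine Continuous.subtype_mk (Continuous.prodMk ?_ continuous_const) _
    have h1 : @Continuous B B ⊥ _ id := @continuous_bot B B id _
    exact @Continuous.comp (B × (Fin 0 → ℝ)) B B (@instTopologicalSpaceProd _ _ ⊥ _) ⊥ _ _ _ h1
      (@continuous_fst B (Fin 0 → ℝ) ⊥ _)
  · have h1 : Continuous fun p : s => p.1.1 := continuous_fst.comp continuous_subtype_val
    have h2 : @Continuous B B _ ⊥ id := @continuous_of_discreteTopology B _ _ B ⊥ id
    exact @Continuous.prodMk B (Fin 0 → ℝ) s ⊥ _ _ _ _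
      (@Continuous.comp s B B _ _ ⊥ _ _ h2 h1) continuous_const

/-! ### the step of the filtration -/

/-- lower all values by `s` -/
def cut (s : ℝ) (x : Fn I) : Fn I := Fn.mk fun i => max (x.ev i - s) 0

theorem cut_mem {r : ℕ} {p : B × Fn I} (h : p ∈ pSet J r) {s : ℝ} (hs : 0 ≤ s) :
    (p.1, cut s p.2) ∈ pSet J r := by
  refine ⟨fun i => le_max_right _ _, fun i hi => ?_, ?_⟩
  · change max (p.2.ev i - s) 0 = 0
    rw [h.2.1 i hi]
    exact max_eq_right (by linarith)
  · refine le_trans (ncard_le_ncard ?_ (toFinite _)) h.2.2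
    intro i hi
    have h1 : 0 < max (p.2.ev i - s) 0 := hi
    rcases lt_max_iff.mp h1 with h2 | h2
    · change 0 < p.2.ev i
      linarith
    · exact absurd h2 (lt_irrefl _)

theorem cut_zero {x : Fn I} (h : ∀ i, 0 ≤ x.ev i) : cut 0 x = x := Fn.ext fun i => by
  change max (x.ev i - 0) 0 = x.ev i
  rw [sub_zero]
  exact max_eq_left (h i)

theorem cut_lv_mem {r : ℕ} {p : B × Fn I} (h : p ∈ pSet J (r + 1)) :
    (p.1, cut (lv r p.2) p.2) ∈ pSet J r := by
  obtain ⟨h1, h2, -⟩ := cut_mem h (lv_nonneg r p.2)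
  refine ⟨h1, h2, le_trans (ncard_le_ncard ?_ (toFinite _)) (lv_mem r p.2)⟩
  intro i hi
  have h3 : 0 < max (p.2.ev i - lv r p.2) 0 := hi
  rcases lt_max_iff.mp h3 with h4 | h4
  · change lv r p.2 < p.2.ev i
    linarith
  · exact absurd h4 (lt_irrefl _)

theorem cut_smul (g : G) (s : ℝ) (x : Fn I) : cut s (g • x) = g • cut s x := rfl

theorem continuous_cut {P : Type} [TopologicalSpace P] {s : P → ℝ} {x : P → Fn I}
    (hs : Continuous s) (hx : Continuous x) : Continuous fun p => cut (s p) (x p) :=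
  Fn.continuous_mk fun i => (((Fn.continuous_ev i).comp hx).sub hs).max continuous_const

/-- the retraction of the cylinder -/
def retr (J : B → Set I) (r : ℕ) (q : pSet J (r + 1) × unitInterval) :
    pSet J (r + 1) × unitInterval :=
  (⟨(q.1.1.1, cut (min (q.2 : ℝ) (lv r q.1.1.2)) q.1.1.2),
    cut_mem q.1.2 (le_min q.2.2.1 (lv_nonneg r _))⟩,
   ⟨q.2 - min (q.2 : ℝ) (lv r q.1.1.2), sub_nonneg.mpr (min_le_left _ _), by
      have h1 : 0 ≤ min (q.2 : ℝ) (lv r q.1.1.2) := le_min q.2.2.1 (lv_nonneg r _)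
      linarith [q.2.2.2]⟩)

theorem continuous_retr (J : B → Set I) (r : ℕ) : Continuous (retr J r) := by
  have h1 : Continuous fun q : pSet J (r + 1) × unitInterval => q.1.1.2 :=
    continuous_snd.comp (continuous_subtype_val.comp continuous_fst)
  have h2 : Continuous fun q : pSet J (r + 1) × unitInterval => (q.2 : ℝ) :=
    continuous_subtype_val.comp continuous_snd
  have h3 : Continuous fun q : pSet J (r + 1) × unitInterval =>
      min (q.2 : ℝ) (lv r q.1.1.2) := h2.min ((continuous_lv r).comp h1)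
  refine Continuous.prodMk (Continuous.subtype_mk (Continuous.prodMk ?_ ?_) _)
    (Continuous.subtype_mk (h2.sub h3) _)
  · exact continuous_fst.comp (continuous_subtype_val.comp continuous_fst)
  · exact continuous_cut h3 h1

theorem tendsto_retr [Finite B] (J : B → Set I) (r : ℕ) :
    Tendsto (retr J r) (cocompact _) (cocompact _) := by
  intro K hK
  obtain ⟨L, hL, hLK⟩ := mem_cocompact.mp hK
  have h1 : Continuous fun q : pSet J (r + 1) × unitInterval => q.1.1.2 :=
    continuous_snd.comp (continuous_subtype_val.comp continuous_fst)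
  obtain ⟨R, hR⟩ := Fn.exists_bound (hL.image h1)
  have h2 : IsCompact ((univ : Set B) ×ˢ {x : Fn I | ∀ i, x.ev i ∈ Icc (-(|R| + 1)) (|R| + 1)}) :=
    (toFinite _).isCompact.prod (Fn.isCompact_box _)
  have h3 := (isClosed_pSet J (r + 1)).isClosedEmbedding_subtypeVal.isCompact_preimage h2
  refine mem_cocompact.mpr ⟨_, h3.prod isCompact_univ, fun q hq => hLK fun hq' => hq ?_⟩
  refine ⟨⟨trivial, fun i => ⟨?_, ?_⟩⟩, trivial⟩
  · have h4 := q.1.2.1 i
    linarith [abs_nonneg R]
  · have h4 : max (q.1.1.2.ev i - min (q.2 : ℝ) (lv r q.1.1.2)) 0 ≤ R :=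
      hR _ ⟨_, hq', rfl⟩ i
    have h5 := le_max_left (q.1.1.2.ev i - min (q.2 : ℝ) (lv r q.1.1.2)) 0
    have h6 := min_le_left (q.2 : ℝ) (lv r q.1.1.2)
    linarith [q.2.2.2, le_abs_self R]

theorem pSet_mono (J : B → Set I) (r : ℕ) : pSet J r ⊆ pSet J (r + 1) :=
  fun _ h => ⟨h.1, h.2.1, h.2.2.trans (Nat.le_succ r)⟩

theorem gfc_pSp_succ [Finite B] (hJ : Eqf G J) (r : ℕ) (h1 : GFC G (pSp hJ r))
    (h2 : GFC G (oSp hJ r)) : GFC G (pSp hJ (r + 1)) := by
  refine H399.gfc_of_closed (A := pSp hJ r) (B := pSp hJ (r + 1)) (C := oSp hJ r)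
    (Set.inclusion (pSet_mono J r)) (Set.inclusion (sdiff_subset (t := pSet J r)))
    (IsClosedEmbedding.inclusion _ ((isClosed_pSet J r).preimage continuous_subtype_val))
    (IsOpenEmbedding.inclusion _ ?_) ?_ (fun _ _ => rfl) (fun _ _ => rfl)
    (retr J r) (continuous_retr J r) (tendsto_retr J r) ?_ ?_ ?_ ?_ h1 h2
  · have e : (Subtype.val ⁻¹' (pSet J (r + 1) \ pSet J r) : Set (pSet J (r + 1))) =
        Subtype.val ⁻¹' (pSet J r)ᶜ := by
      ext p
      exact ⟨fun h => h.2, fun h => ⟨p.2, h⟩⟩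
    rw [e]
    exact (isClosed_pSet J r).isOpen_compl.preimage continuous_subtype_val
  · rw [isCompl_iff]
    constructor
    · rw [Set.disjoint_left]
      rintro _ ⟨x, rfl⟩ ⟨y, hy⟩
      apply y.2.2
      have h3 : y.1 = x.1 := congrArg Subtype.val hy
      rw [h3]
      exact x.2
    · rw [codisjoint_iff_le_sup]
      intro p _
      by_cases hp : p.1 ∈ pSet J r
      · exact Or.inl ⟨⟨p.1, hp⟩, rfl⟩
      · exact Or.inr ⟨⟨p.1, p.2, hp⟩, rfl⟩
  · intro b
    have h3 : min ((0 : unitInterval) : ℝ) (lv r b.1.2) = 0 := min_eq_left (lv_nonneg r _)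
    refine Prod.ext (Subtype.ext (Prod.ext rfl ?_)) (Subtype.ext ?_)
    · change cut (min ((0 : unitInterval) : ℝ) (lv r b.1.2)) b.1.2 = b.1.2
      rw [h3]
      exact cut_zero b.2.1
    · change ((0 : unitInterval) : ℝ) - min ((0 : unitInterval) : ℝ) (lv r b.1.2) = 0
      rw [h3]
      exact sub_zero _
  · intro x t
    have h3 : min (t : ℝ) (lv r x.1.2) = 0 := by
      rw [lv_eq_zero r x.2.2.2]
      exact min_eq_right t.2.1
    refine Prod.ext (Subtype.ext (Prod.ext rfl ?_)) (Subtype.ext ?_)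
    · change cut (min (t : ℝ) (lv r x.1.2)) x.1.2 = x.1.2
      rw [h3]
      exact cut_zero x.2.1
    · change (t : ℝ) - min (t : ℝ) (lv r x.1.2) = t
      rw [h3]
      exact sub_zero _
  · intro q
    rcases le_total (q.2 : ℝ) (lv r q.1.1.2) with h3 | h3
    · left
      refine Subtype.ext ?_
      change (q.2 : ℝ) - min (q.2 : ℝ) (lv r q.1.1.2) = 0
      rw [min_eq_left h3]
      exact sub_self _
    · right
      refine ⟨⟨(q.1.1.1, cut (lv r q.1.1.2) q.1.1.2), cut_lv_mem q.1.2⟩,
        Subtype.ext (Prod.ext rfl ?_)⟩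
      change cut (lv r q.1.1.2) q.1.1.2 = cut (min (q.2 : ℝ) (lv r q.1.1.2)) q.1.1.2
      rw [min_eq_right h3]
  · intro g b t
    refine Prod.ext (Subtype.ext (Prod.ext rfl ?_)) (Subtype.ext ?_)
    · change cut (min (t : ℝ) (lv r (g • b.1.2))) (g • b.1.2) =
        g • cut (min (t : ℝ) (lv r b.1.2)) b.1.2
      rw [lv_smul, cut_smul]
    · change (t : ℝ) - min (t : ℝ) (lv r (g • b.1.2)) = (t : ℝ) - min (t : ℝ) (lv r b.1.2)
      rw [lv_smul]

/-! ### the open stratum -/

variable (J) in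
/-- the subsets of size `n` of the members of the family -/
def Sb (n : ℕ) : Type := {q : B × Set I // q.2 ⊆ J q.1 ∧ q.2.ncard = n}

instance [Finite B] (n : ℕ) : Finite (Sb J n) := inferInstanceAs (Finite (Subtype _))

instance (n : ℕ) : TopologicalSpace (Sb J n) := ⊥

instance (n : ℕ) : DiscreteTopology (Sb J n) := ⟨rfl⟩

/-- the action on these subsets -/
@[reducible] def Eqf.act (hJ : Eqf G J) (n : ℕ) : MulAction G (Sb J n) where
  smul g q := ⟨(g • q.1.1, g • q.1.2), by
    change g • q.1.2 ⊆ J (g • q.1.1)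
    rw [hJ]
    exact smul_set_mono q.2.1, by
    change (g • q.1.2).ncard = n
    rw [ncard_smul_set]
    exact q.2.2⟩
  one_smul q := Subtype.ext (Prod.ext (one_smul G q.1.1) (one_smul G q.1.2))
  mul_smul g h q := Subtype.ext (Prod.ext (mul_smul g h q.1.1) (mul_smul g h q.1.2))

theorem Eqf.sb (hJ : Eqf G J) (n : ℕ) :
    @Eqf G _ I _ (Sb J n) (hJ.act n) fun q => q.1.2 := fun _ _ => rfl

theorem card_of_mem {r : ℕ} {p : B × Fn I} (h : p ∈ pSet J (r + 1) \ pSet J r) :
    {i | 0 < p.2.ev i}.ncard = r + 1 := by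
  refine le_antisymm h.1.2.2 ?_
  by_contra h1
  exact h.2 ⟨h.1.1, h.1.2.1, by omega⟩

theorem sub_of_mem {r : ℕ} {p : B × Fn I} (h : p ∈ pSet J r) : {i | 0 < p.2.ev i} ⊆ J p.1 := by
  intro i hi
  by_contra h1
  exact (ne_of_gt hi) (h.2.1 i h1)

theorem eventually_supp {r : ℕ} (p : ↥(pSet J (r + 1) \ pSet J r)) :
    ∀ᶠ q : ↥(pSet J (r + 1) \ pSet J r) in 𝓝 p,
      q.1.1 = p.1.1 ∧ {i | 0 < q.1.2.ev i} = {i | 0 < p.1.2.ev i} := by
  have h1 : Continuous fun q : ↥(pSet J (r + 1) \ pSet J r) => q.1.2 :=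
    continuous_snd.comp continuous_subtype_val
  have h2 : Continuous fun q : ↥(pSet J (r + 1) \ pSet J r) => q.1.1 :=
    continuous_fst.comp continuous_subtype_val
  filter_upwards [h1.continuousAt.eventually (eventually_pos p.1.2),
    h2.continuousAt.eventually ((isOpen_discrete {p.1.1}).mem_nhds rfl)] with q hq hb
  refine ⟨hb, (eq_of_subset_of_ncard_le hq ?_ (toFinite _)).symm⟩
  rw [card_of_mem p.2, card_of_mem q.2]

open scoped Classical in
/-- the exponential on the coordinates in `s` -/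
def ex (s : Set I) (y : Fn I) : Fn I := Fn.mk fun i => if i ∈ s then Real.exp (y.ev i) else 0

theorem ex_pos (s : Set I) (y : Fn I) : {i | 0 < (ex s y).ev i} = s := by
  ext i
  by_cases hi : i ∈ s
  · exact ⟨fun _ => hi, fun _ => by
      change 0 < (ex s y).ev i
      rw [ex, Fn.ev_mk, if_pos hi]
      exact Real.exp_pos _⟩
  · refine ⟨fun h => ?_, fun h => absurd h hi⟩
    have h1 : 0 < (ex s y).ev i := h
    rw [ex, Fn.ev_mk, if_neg hi] at h1
    exact absurd h1 (lt_irrefl _)

theorem ex_mem {r : ℕ} (q : Sb J (r + 1)) (y : Fn I) :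
    (q.1.1, ex q.1.2 y) ∈ pSet J (r + 1) \ pSet J r := by
  have h1 : {i | 0 < (ex q.1.2 y).ev i}.ncard = r + 1 := by
    rw [ex_pos]
    exact q.2.2
  refine ⟨⟨fun i => ?_, fun i hi => ?_, h1.le⟩, fun h => ?_⟩
  · change 0 ≤ (ex q.1.2 y).ev i
    rw [ex, Fn.ev_mk]
    split_ifs
    · exact (Real.exp_pos _).le
    · exact le_rfl
  · change (ex q.1.2 y).ev i = 0
    rw [ex, Fn.ev_mk, if_neg fun h => hi (q.2.1 h)]
  · have h2 : {i | 0 < (ex q.1.2 y).ev i}.ncard ≤ r := h.2.2
    omega

/-- the open stratum is a family of coordinate subspaces -/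
def oHomeo (J : B → Set I) (r : ℕ) :
    vSet (fun q : Sb J (r + 1) => q.1.2) ≃ₜ ↥(pSet J (r + 1) \ pSet J r) where
  toFun p := ⟨(p.1.1.1.1, ex p.1.1.1.2 p.1.2), ex_mem _ _⟩
  invFun p := ⟨(⟨(p.1.1, {i | 0 < p.1.2.ev i}), sub_of_mem p.2.1, card_of_mem p.2⟩,
    Fn.mk fun i => Real.log (p.1.2.ev i)), fun i hi => by
      have h1 : p.1.2.ev i = 0 := le_antisymm (not_lt.mp hi) (p.2.1.1 i)
      change Real.log (p.1.2.ev i) = 0
      rw [h1, Real.log_zero]⟩
  left_inv p := by
    refine Subtype.ext (Prod.ext (Subtype.ext (Prod.ext rfl (ex_pos _ _))) (Fn.ext fun i => ?_))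
    change Real.log ((ex p.1.1.1.2 p.1.2).ev i) = p.1.2.ev i
    rw [ex, Fn.ev_mk]
    split_ifs with hi
    · exact Real.log_exp _
    · rw [Real.log_zero, p.2 i hi]
  right_inv p := by
    refine Subtype.ext (Prod.ext rfl (Fn.ext fun i => ?_))
    change (ex {i | 0 < p.1.2.ev i} (Fn.mk fun i => Real.log (p.1.2.ev i))).ev i = p.1.2.ev i
    rw [ex, Fn.ev_mk]
    split_ifs with hi
    · exact Real.exp_log hi
    · exact (le_antisymm (not_lt.mp hi) (p.2.1.1 i)).symm
  continuous_toFun := by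
    refine Continuous.subtype_mk (Continuous.comp (g := fun p : Sb J (r + 1) × Fn I =>
      ((p.1.1.1, ex p.1.1.2 p.2) : B × Fn I)) ?_ continuous_subtype_val) _
    refine continuous_prod_of_discrete_left.mpr fun q => ?_
    change Continuous fun y : Fn I => ((q.1.1, ex q.1.2 y) : B × Fn I)
    refine Continuous.prodMk continuous_const (Fn.continuous_mk fun i => ?_)
    by_cases hi : i ∈ q.1.2
    · simp only [hi, if_true]
      exact Real.continuous_exp.comp (Fn.continuous_ev i)
    · simp only [hi, if_false]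
      exact continuous_const
  continuous_invFun := by
    refine Continuous.subtype_mk (Continuous.prodMk ?_ (Fn.continuous_mk fun i => ?_)) _
    · refine continuous_iff_continuousAt.mpr fun p => ?_
      refine (@continuousAt_const _ (Sb J (r + 1)) _ _ p ⟨(p.1.1, {i | 0 < p.1.2.ev i}),
        sub_of_mem p.2.1, card_of_mem p.2⟩).congr ((eventually_supp p).mono fun q hq => ?_)
      exact Subtype.ext (Prod.ext hq.1.symm hq.2.symm)
    · refine continuous_iff_continuousAt.mpr fun p => ?_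
      have h1 : Continuous fun q : ↥(pSet J (r + 1) \ pSet J r) => q.1.2.ev i :=
        (Fn.continuous_ev i).comp (continuous_snd.comp continuous_subtype_val)
      by_cases hi : 0 < p.1.2.ev i
      · exact h1.continuousAt.log (ne_of_gt hi)
      · refine (continuousAt_const (y := (0 : ℝ))).congr ((eventually_supp p).mono fun q hq => ?_)
        have h2 : ¬ 0 < q.1.2.ev i := fun h => hi (hq.2.subset h)
        have h3 : q.1.2.ev i = 0 := le_antisymm (not_lt.mp h2) (q.2.1.1 i)
        change 0 = Real.log (q.1.2.ev i)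
        rw [h3, Real.log_zero]

theorem ex_smul (g : G) (s : Set I) (y : Fn I) : ex (g • s) (g • y) = g • ex s y :=
  Fn.ext fun i => by
    rw [Fn.ev_smul, ex, ex, Fn.ev_mk, Fn.ev_mk, Fn.ev_smul]
    by_cases hi : g⁻¹ • i ∈ s
    · rw [if_pos hi, if_pos (Set.mem_smul_set_iff_inv_smul_mem.mpr hi)]
    · rw [if_neg hi, if_neg fun h => hi (Set.mem_smul_set_iff_inv_smul_mem.mp h)]

theorem gfc_oSp (hJ : Eqf G J) (r : ℕ)
    (h : GFC G (@vSp G _ I _ _ (Sb J (r + 1)) _ _ (hJ.act (r + 1)) _ (hJ.sb (r + 1)))) :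
    GFC G (oSp hJ r) :=
  H32.gfc_of_homeo h (oHomeo J r) fun g _ => Subtype.ext (Prod.ext rfl (ex_smul g _ _))

/-! ### the splitting of the minimum -/

/-- the minimum over `s` -/
def mn (s : Set I) (x : Fn I) : ℝ := sInf (x.ev '' s)

theorem mn_le {s : Set I} (x : Fn I) {i : I} (hi : i ∈ s) : mn s x ≤ x.ev i :=
  csInf_le (toFinite _).bddBelow ⟨i, hi, rfl⟩

theorem exists_mn {s : Set I} (hs : s.Nonempty) (x : Fn I) : ∃ i ∈ s, x.ev i = mn s x :=
  (hs.image x.ev).csInf_mem (toFinite _)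

theorem mn_eq {s : Set I} {x : Fn I} {i : I} (hi : i ∈ s) (h : ∀ j ∈ s, x.ev i ≤ x.ev j) :
    mn s x = x.ev i := by
  obtain ⟨j, hj, h1⟩ := exists_mn ⟨i, hi⟩ x
  exact le_antisymm (mn_le x hi) (h1 ▸ h j hj)

theorem continuous_mn {s : Set I} (hs : s.Nonempty) : Continuous (mn s) := by
  refine (LipschitzWith.of_le_add fun x y => ?_).continuous
  obtain ⟨i, hi, h⟩ := exists_mn hs y
  rw [← h]
  exact (mn_le x hi).trans (Fn.ev_le x y i)

theorem mn_smul (g : G) (s : Set I) (x : Fn I) : mn (g • s) (g • x) = mn s x := by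
  unfold mn
  congr 1
  ext t
  constructor
  · rintro ⟨i, hi, rfl⟩
    exact ⟨g⁻¹ • i, Set.mem_smul_set_iff_inv_smul_mem.mp hi, rfl⟩
  · rintro ⟨i, hi, rfl⟩
    exact ⟨g • i, smul_mem_smul_set hi, by rw [Fn.ev_smul, inv_smul_smul]⟩

open scoped Classical in
/-- add `t` on the coordinates in `s` -/
def sh (s : Set I) (t : ℝ) (x : Fn I) : Fn I := Fn.mk fun i => if i ∈ s then x.ev i + t else 0

theorem sh_of_mem {s : Set I} (t : ℝ) (x : Fn I) {i : I} (hi : i ∈ s) :
    (sh s t x).ev i = x.ev i + t := by rw [sh, Fn.ev_mk, if_pos hi]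

theorem sh_of_notMem {s : Set I} (t : ℝ) (x : Fn I) {i : I} (hi : i ∉ s) :
    (sh s t x).ev i = 0 := by rw [sh, Fn.ev_mk, if_neg hi]

theorem continuous_sh (s : Set I) {P : Type} [TopologicalSpace P] {t : P → ℝ} {x : P → Fn I}
    (ht : Continuous t) (hx : Continuous x) : Continuous fun p => sh s (t p) (x p) := by
  refine Fn.continuous_mk fun i => ?_
  by_cases hi : i ∈ s
  · simp only [hi, if_true]
    exact ((Fn.continuous_ev i).comp hx).add ht
  · simp only [hi, if_false]
    exact continuous_const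

theorem sh_smul (g : G) (s : Set I) (t : ℝ) (x : Fn I) : sh (g • s) t (g • x) = g • sh s t x :=
  Fn.ext fun i => by
    rw [Fn.ev_smul]
    by_cases hi : g⁻¹ • i ∈ s
    · rw [sh_of_mem _ _ hi, sh_of_mem _ _ (Set.mem_smul_set_iff_inv_smul_mem.mpr hi), Fn.ev_smul]
    · rw [sh_of_notMem _ _ hi,
        sh_of_notMem _ _ fun h => hi (Set.mem_smul_set_iff_inv_smul_mem.mp h)]

theorem sh_mem {n : ℕ} (hn : ∀ b, (J b).ncard = n + 1) (p : B × Fn I) :
    (p.1, sh (J p.1) (-mn (J p.1) p.2) p.2) ∈ pSet J n := by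
  have hne : (J p.1).Nonempty := nonempty_of_ncard_ne_zero (by rw [hn]; omega)
  obtain ⟨j, hj, hmin⟩ := exists_mn hne p.2
  refine ⟨fun i => ?_, fun i hi => sh_of_notMem _ _ hi, ?_⟩
  · change 0 ≤ (sh (J p.1) (-mn (J p.1) p.2) p.2).ev i
    by_cases hi : i ∈ J p.1
    · rw [sh_of_mem _ _ hi]
      linarith [mn_le p.2 hi]
    · rw [sh_of_notMem _ _ hi]
  · have h1 : {i | 0 < (sh (J p.1) (-mn (J p.1) p.2) p.2).ev i} ⊆ J p.1 \ {j} := by
      intro i hi
      have h2 : 0 < (sh (J p.1) (-mn (J p.1) p.2) p.2).ev i := hi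
      by_cases h3 : i ∈ J p.1
      · refine ⟨h3, fun h4 => ?_⟩
        have h5 : i = j := h4
        rw [sh_of_mem _ _ h3, h5, hmin] at h2
        linarith
      · rw [sh_of_notMem _ _ h3] at h2
        exact absurd h2 (lt_irrefl _)
    refine le_trans (ncard_le_ncard h1 (toFinite _)) ?_
    rw [ncard_sdiff_singleton_of_mem hj, hn]
    exact le_rfl

theorem mn_sh {n : ℕ} (hn : ∀ b, (J b).ncard = n + 1) {p : B × Fn I} (hp : p ∈ pSet J n)
    (t : ℝ) : mn (J p.1) (sh (J p.1) t p.2) = t := by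
  obtain ⟨j, hj, h0⟩ : ∃ j ∈ J p.1, p.2.ev j = 0 := by
    by_contra h
    have h1 : J p.1 ⊆ {i | 0 < p.2.ev i} := fun i hi =>
      lt_of_le_of_ne (hp.1 i) fun h2 => h ⟨i, hi, h2.symm⟩
    have h2 := (ncard_le_ncard h1 (toFinite _)).trans hp.2.2
    rw [hn] at h2
    omega
  rw [mn_eq hj, sh_of_mem _ _ hj, h0, zero_add]
  intro i hi
  rw [sh_of_mem _ _ hj, sh_of_mem _ _ hi, h0]
  linarith [hp.1 i]

/-- the splitting of the minimum -/
def vHomeo {n : ℕ} (hn : ∀ b, (J b).ncard = n + 1) : (pSet J n × ℝ) ≃ₜ vSet J where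
  toFun p := ⟨(p.1.1.1, sh (J p.1.1.1) p.2 p.1.1.2), fun _ hi => sh_of_notMem _ _ hi⟩
  invFun p := (⟨(p.1.1, sh (J p.1.1) (-mn (J p.1.1) p.1.2) p.1.2), sh_mem hn p.1⟩,
    mn (J p.1.1) p.1.2)
  left_inv p := by
    refine Prod.ext (Subtype.ext (Prod.ext rfl (Fn.ext fun i => ?_))) (mn_sh hn p.1.2 p.2)
    change (sh (J p.1.1.1) (-mn (J p.1.1.1) (sh (J p.1.1.1) p.2 p.1.1.2))
      (sh (J p.1.1.1) p.2 p.1.1.2)).ev i = p.1.1.2.ev i
    rw [mn_sh hn p.1.2 p.2]
    by_cases hi : i ∈ J p.1.1.1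
    · rw [sh_of_mem _ _ hi, sh_of_mem _ _ hi, add_neg_cancel_right]
    · rw [sh_of_notMem _ _ hi, p.1.2.2.1 i hi]
  right_inv p := by
    refine Subtype.ext (Prod.ext rfl (Fn.ext fun i => ?_))
    change (sh (J p.1.1) (mn (J p.1.1) p.1.2)
      (sh (J p.1.1) (-mn (J p.1.1) p.1.2) p.1.2)).ev i = p.1.2.ev i
    by_cases hi : i ∈ J p.1.1
    · rw [sh_of_mem _ _ hi, sh_of_mem _ _ hi, neg_add_cancel_right]
    · rw [sh_of_notMem _ _ hi, p.2 i hi]
  continuous_toFun := by
    refine Continuous.subtype_mk (Continuous.comp (g := fun p : B × Fn I × ℝ =>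
      (p.1, sh (J p.1) p.2.2 p.2.1)) (f := fun p : pSet J n × ℝ => (p.1.1.1, p.1.1.2, p.2))
      ?_ ?_) _
    · rw [continuous_prod_of_discrete_left]
      intro b
      exact continuous_const.prodMk (continuous_sh (J b) continuous_snd continuous_fst)
    · have h1 : Continuous fun p : pSet J n × ℝ => p.1.1 :=
        continuous_subtype_val.comp continuous_fst
      exact (continuous_fst.comp h1).prodMk ((continuous_snd.comp h1).prodMk continuous_snd)
  continuous_invFun := by
    have hne : ∀ b, (J b).Nonempty := fun b => nonempty_of_ncard_ne_zero (by rw [hn]; omega)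
    refine Continuous.prodMk (Continuous.subtype_mk (Continuous.comp (g := fun p : B × Fn I =>
      (p.1, sh (J p.1) (-mn (J p.1) p.2) p.2)) ?_ continuous_subtype_val) _)
      (Continuous.comp (g := fun p : B × Fn I => mn (J p.1) p.2) ?_ continuous_subtype_val)
    · rw [continuous_prod_of_discrete_left]
      intro b
      exact continuous_const.prodMk
        (continuous_sh (J b) (continuous_mn (hne b)).neg continuous_id)
    · rw [continuous_prod_of_discrete_left]
      intro b
      exact continuous_mn (hne b)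

theorem gfc_vSp_succ [Finite G] (hJ : Eqf G J) {n : ℕ} (hn : ∀ b, (J b).ncard = n + 1)
    (h : GFC G (pSp hJ n)) : GFC G (vSp hJ) := by
  refine H32.gfc_of_homeo (H32.gfc_xt h (S := Rr) H399.fc_Rr) (vHomeo hn) fun g p => ?_
  refine Subtype.ext (Prod.ext rfl ?_)
  have h1 : ∀ (b : B) (t : ℝ) (x : Fn I), sh (J (g • b)) t (g • x) = g • sh (J b) t x := by
    intro b t x
    rw [hJ, sh_smul]
  exact h1 _ _ _

/-- **Families of coordinate subspaces are finite `G`-cell spaces.** -/
theorem gfc_vSp [Finite G] (n : ℕ) : ∀ (B : Type) [TopologicalSpace B] [DiscreteTopology B]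
    [MulAction G B] [Finite B] (J : B → Set I) (hJ : Eqf G J), (∀ b, (J b).ncard = n) →
    GFC G (vSp hJ) := by
  induction n using Nat.strong_induction_on with
  | _ n ih =>
    intro B _ _ _ _ J hJ hn
    cases n with
    | zero =>
      refine gfc_points _ _ fun p => ⟨fun h => Fn.ext fun i => h i ?_, fun h i _ => ?_⟩
      · rw [(ncard_eq_zero (toFinite _)).mp (hn p.1)]
        exact notMem_empty i
      · rw [h]
        rfl
    | succ n =>
      refine gfc_vSp_succ hJ hn ?_
      have key : ∀ r, r ≤ n → GFC G (pSp hJ r) := by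
        intro r
        induction r with
        | zero =>
          intro _
          refine gfc_points _ _ fun p => ⟨fun h => Fn.ext fun i => ?_, fun h => ?_⟩
          · have h1 : {i | 0 < p.2.ev i} = ∅ :=
              (ncard_eq_zero (toFinite _)).mp (Nat.le_zero.mp h.2.2)
            have h2 : ¬ 0 < p.2.ev i := fun h3 => by
              have h4 : i ∈ {i | 0 < p.2.ev i} := h3
              rw [h1] at h4
              exact h4
            exact le_antisymm (not_lt.mp h2) (h.1 i)
          · have h1 : ∀ i, p.2.ev i = 0 := fun i => by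
              rw [h]
              rfl
            refine ⟨fun i => (h1 i).ge, fun i _ => h1 i, ?_⟩
            have h2 : {i | 0 < p.2.ev i} = ∅ := by
              ext i
              exact ⟨fun h3 => (ne_of_gt h3) (h1 i), fun h3 => h3.elim⟩
            rw [h2, ncard_empty]
        | succ r ihr =>
          intro hr
          refine gfc_pSp_succ hJ r (ihr (by omega)) (gfc_oSp hJ r ?_)
          exact @ih (r + 1) (by omega) (Sb J (r + 1)) _ _ (hJ.act (r + 1)) _ _ (hJ.sb (r + 1))
            fun q => q.2.2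
      exact key n le_rfl

variable (G I) in
/-- the permutation representation -/
abbrev perm : GSpace G := ⟨Fn I⟩

/-- **Permutation representations are finite `G`-cell spaces.** -/
theorem gfc_perm [Finite G] : GFC G (perm G I) := by
  have hJ : Eqf G (fun _ : PUnit => (univ : Set I)) := fun g _ => (smul_set_univ).symm
  refine H32.gfc_of_homeo (gfc_vSp _ PUnit _ hJ fun _ => rfl)
    { toFun := fun p => p.1.2
      invFun := fun x => ⟨(PUnit.unit, x), fun i hi => absurd trivial hi⟩
      left_inv := fun _ => rfl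
      right_inv := fun _ => rfl
      continuous_toFun := continuous_snd.comp continuous_subtype_val
      continuous_invFun := (continuous_const.prodMk continuous_id).subtype_mk _ } fun _ _ => rfl

end Vale.Agent.P241Z
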