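import Vale.Agent.P241Z.D0
import Vale.Agent.P241.St.Defs
import Vale.Agent.P241Z.Reg
import Vale.Agent.P241.H585.Api
import Vale.Agent.P241.H486.Fix

/-!
# P241, genuine `G`-spectra: the facts which are needed to set up the categories
-/

open CategoryTheory MonoidalCategory OnePoint

namespace Vale.Agent.P241Z

open Vale.Agent.P251 Vale.Agent.P251.St Vale.Agent.P241.St Vale.Agent.P241 Vale.Agent.P251.G
open Vale.Agent.P251.G.LC Vale.Agent.P241.Geo

noncomputable section

/-- The smash product `f ∧ g : X⁺ ∧ Y⁺ → X'⁺ ∧ Y'⁺` of two pointed maps. -/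
def smashFun {X X' Y Y' : Space} (f : X.Pt → X'.Pt) (g : Y.Pt → Y'.Pt) (z : (X.prod Y).Pt) :
    (X'.prod Y').Pt :=
  z.elim ∞ fun z => St.smash (f (Space.pt z.1)) (g (Space.pt z.2))

end

variable {G : Type} [Group G]

theorem gfc_reg [Finite G] : GFC G (reg G) := by
  let _ : Fintype G := Fintype.ofFinite G
  exact H32.gfc_of_homeo (gfc_perm (G := G) (I := G)) (Homeomorph.refl (G → ℝ)) fun _ _ => rfl

theorem gfc_regLine [Finite G] : GFC G (regLine G) := H32.gfc_xt gfc_reg H399.fc_Rr

theorem gfc_susp [Finite G] {X : GSpace G} (hX : GFC G X) : GFC G (X.prod (regLine G)) :=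
  H32.gfc_prod hX gfc_regLine

theorem fc_fix [Finite G] {X : GSpace G} (hX : GFC G X) (H : Subgroup G) : St.FC (X.fix H) :=
  H486.fc_fix hX H

section smash

variable {X X' X'' Y Y' Y'' : Space}

theorem smashFun_eq (f : Map X X') (g : Map Y Y') :
    smashFun f.toFun g.toFun = app (toHom f ⊗ₘ toHom g) := by
  funext z
  induction z using OnePoint.rec with
  | infty => rfl
  | coe z => rfl

theorem continuous_smashFun (f : Map X X') (g : Map Y Y') :
    Continuous (smashFun f.toFun g.toFun) := by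
  rw [smashFun_eq]
  exact continuous_app _

theorem smashFun_smash {f : X.Pt → X'.Pt} {g : Y.Pt → Y'.Pt} (hf : f ∞ = ∞) (hg : g ∞ = ∞)
    (x : X.Pt) (y : Y.Pt) : smashFun f g (St.smash x y) = St.smash (f x) (g y) := by
  induction x using OnePoint.rec with
  | infty =>
    rw [hf]
    rfl
  | coe x =>
    induction y using OnePoint.rec with
    | infty =>
      rw [hg]
      exact (smash_infty_right (f x)).symm
    | coe y => rfl

theorem smashFun_id : smashFun (X := X) (Y := Y) id id = id := by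
  funext z
  induction z using OnePoint.rec with
  | infty => rfl
  | coe z => rfl

theorem smashFun_comp (f : X.Pt → X'.Pt) (g : Y.Pt → Y'.Pt) {f' : X'.Pt → X''.Pt}
    {g' : Y'.Pt → Y''.Pt} (hf : f' ∞ = ∞) (hg : g' ∞ = ∞) :
    smashFun (f' ∘ f) (g' ∘ g) = smashFun f' g' ∘ smashFun f g := by
  funext z
  induction z using OnePoint.rec with
  | infty => rfl
  | coe z => exact (smashFun_smash hf hg _ _).symm

end smash

theorem map_ext {X Y : Space} {f g : Map X Y} (h : f.toFun = g.toFun) : f = g :=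
  Map.ext fun x => congrFun h x

theorem gten_eq {X X' Y Y' : GSpace G} (f : L X ⟶ L X') (g : L Y ⟶ L Y') :
    gten f g = f ⊗ₘ g := rfl

theorem isGMap_smashFun {X X' Y Y' : GSpace G} (f : Map X.und X'.und) (g : Map Y.und Y'.und)
    (hf : IsGMap (X := X) (Y := X') f.toFun) (hg : IsGMap (X := Y) (Y := Y') g.toFun) :
    IsGMap (X := X.prod Y) (Y := X'.prod Y') (smashFun f.toFun g.toFun) := by
  rw [smashFun_eq]
  exact (isGMap_iff (X := X.prod Y) (Y := X'.prod Y') (gten (toHom f) (toHom g))).mpr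
    (eqv_gten ((isGMap_iff (toHom f)).mp hf) ((isGMap_iff (toHom g)).mp hg))

theorem isGMap_triv' {X Y : Space} (f : Map X Y) :
    IsGMap (X := GSpace.triv G X) (Y := GSpace.triv G Y) f.toFun := H32.isGMap_triv f.toFun

/-- the product of an equivariant homotopy with a `G`-space -/
theorem GHtp.whiskerRight {X X' : GSpace G} {f f' : L X ⟶ L X'} (h : GHtp f f')
    (Y : GSpace G) : GHtp (X := X.prod Y) (Y := X'.prod Y) (f ▷ L Y) (f' ▷ L Y) := by
  obtain ⟨K, hK, h0, h1⟩ := h
  let s : (L X ⊗ L Y) ⊗ II ⟶ (L X ⊗ II) ⊗ L Y :=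
    (α_ _ _ _).hom ≫ L X ◁ (β_ _ _).hom ≫ (α_ _ _ _).inv
  have hs : ∀ (x : OnePoint (L X)) (y : OnePoint (L Y)) (t : OnePoint unitInterval),
      app s (LC.smash (LC.smash x y) t) = LC.smash (LC.smash x t) y := by
    intro x y t
    rw [app_comp, app_comp, app_associator_smash, app_whiskerLeft_smash, app_braiding_smash,
      app_associator_inv_smash]
  have hv : ∀ (t : unitInterval) (x : OnePoint (L X)) (y : OnePoint (L Y)),
      app (incl t (L X ⊗ L Y) ≫ s ≫ K ▷ L Y) (LC.smash x y) =
        LC.smash (app (incl t (L X) ≫ K) x) y := by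
    intro t x y
    rw [app_comp, app_comp, app_incl, hs, app_whiskerRight_smash, app_comp, app_incl]
  refine ⟨s ≫ K ▷ L Y, fun g => ?_, ?_, ?_⟩
  · refine tensor_ext₃ (X := L X) (Y := L Y) (Z := II) fun x y t => ?_
    have e1 : app (act (X.prod Y) g ▷ II) (LC.smash (LC.smash (x : OnePoint (L X))
        (y : OnePoint (L Y))) (t : OnePoint unitInterval)) =
        LC.smash (LC.smash (app (act X g) x) (app (act Y g) y)) (t : OnePoint unitInterval) := rfl
    have e2 : ∀ (a : OnePoint (L X')) (b : OnePoint (L Y)),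
        app (act (X'.prod Y) g) (LC.smash a b) = LC.smash (app (act X' g) a) (app (act Y g) b) := by
      intro a b
      rw [app_act, app_act]
      exact (app_act (X'.prod Y) g _).trans (H486.smul_prod X' Y g a b)
    have e3 := congrArg (fun k => app k (LC.smash (x : OnePoint (L X))
      (t : OnePoint unitInterval))) (hK g)
    simp only [app_comp] at e3
    rw [app_whiskerRight_smash] at e3
    refine (congrArg (app (s ≫ K ▷ L Y)) e1).trans ?_
    refine Eq.trans ?_ (congrArg (app (act (X'.prod Y) g)) (a₂ := LC.smash (app K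
      (LC.smash (x : OnePoint (L X)) (t : OnePoint unitInterval))) (y : OnePoint (L Y))) ?_).symm
    · rw [app_comp, hs, app_whiskerRight_smash, e2, e3]
    · change app (s ≫ K ▷ L Y) _ = _
      rw [app_comp, hs, app_whiskerRight_smash]
  · refine tensor_ext (X := L X) (Y := L Y) fun x y => ?_
    refine (hv 0 x y).trans ?_
    rw [h0]
    exact (app_whiskerRight_smash f _ _ _).symm
  · refine tensor_ext (X := L X) (Y := L Y) fun x y => ?_
    refine (hv 1 x y).trans ?_
    rw [h1]
    exact (app_whiskerRight_smash f' _ _ _).symm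

theorem gHomotopic_smashFun {X X' : GSpace G} (Y : GSpace G) (f f' : Map X.und X'.und)
    (h : GHomotopic (X := X) (Y := X') f.toFun f'.toFun) :
    GHomotopic (X := X.prod Y) (Y := X'.prod Y) (smashFun (Y := Y.und) f.toFun id)
      (smashFun (Y := Y.und) f'.toFun id) := by
  have h1 := GHtp.whiskerRight ((gHomotopic_iff (toHom f) (toHom f')).mp h) Y
  have h2 := (gHomotopic_iff (X := X.prod Y) (Y := X'.prod Y) _ _).mpr h1
  have e : ∀ k : Map X.und X'.und, smashFun (Y := Y.und) k.toFun id = app (toHom k ▷ L Y) :=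
    fun k => smashFun_eq k ⟨id, continuous_id, rfl⟩
  rw [e, e]
  exact h2

section res

variable {X Y Z : GSpace G} (H : Subgroup G)

theorem fixIncl_eq (X : GSpace G) : fixIncl X H = app (fixι X H) := rfl

theorem isRes_fixMap (f : L X ⟶ L Y) (hf : Eqv f) :
    IsRes (X := X) (Y := Y) H (app f) (app (fixMap f hf H)) := fun x =>
  congrArg (fun k : fixL X H ⟶ L Y => app k x) (fixMap_ι f hf H)

theorem IsRes.uniq {f : X.und.Pt → Y.und.Pt} {g g' : (X.fix H).Pt → (Y.fix H).Pt}
    (h : IsRes H f g) (h' : IsRes H f g') : g = g' :=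
  funext fun x => injective_fixι Y H ((h x).trans (h' x).symm)

theorem exists_res (f : Map X.und Y.und) (hf : IsGMap (X := X) (Y := Y) f.toFun) :
    ∃ g : Map (X.fix H) (Y.fix H), IsRes H f.toFun g.toFun :=
  ⟨ofHom (fixMap (toHom f) ((isGMap_iff (toHom f)).mp hf) H), isRes_fixMap H _ _⟩

theorem IsRes.eq_id {g : (X.fix H).Pt → (X.fix H).Pt} (h : IsRes (X := X) H id g) : g = id :=
  h.uniq H fun _ => rfl

theorem IsRes.eq_comp {f : X.und.Pt → Y.und.Pt} {f' : Y.und.Pt → Z.und.Pt}
    {g : (X.fix H).Pt → (Y.fix H).Pt} {g' : (Y.fix H).Pt → (Z.fix H).Pt}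
    {k : (X.fix H).Pt → (Z.fix H).Pt} (h : IsRes H f g) (h' : IsRes H f' g')
    (hk : IsRes H (f' ∘ f) k) : k = g' ∘ g :=
  hk.uniq H fun x => (h' (g x)).trans (congrArg f' (h x))

theorem IsRes.homotopic {f f' : Map X.und Y.und} (hf : IsGMap (X := X) (Y := Y) f.toFun)
    (hf' : IsGMap (X := X) (Y := Y) f'.toFun) {g g' : Map (X.fix H) (Y.fix H)}
    (h : IsRes H f.toFun g.toFun) (h' : IsRes H f'.toFun g'.toFun)
    (hh : GHomotopic (X := X) (Y := Y) f.toFun f'.toFun) : St.Homotopic g.toFun g'.toFun := by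
  have h1 := GHtp.fix ((gHomotopic_iff (toHom f) (toHom f')).mp hh)
    ((isGMap_iff (toHom f)).mp hf) ((isGMap_iff (toHom f')).mp hf') H
  rw [h.uniq H (isRes_fixMap H (toHom f) ((isGMap_iff (toHom f)).mp hf)),
    h'.uniq H (isRes_fixMap H (toHom f') ((isGMap_iff (toHom f')).mp hf'))]
  exact (homotopic_iff' (ofHom _) (ofHom _)).mpr h1

end res

end Vale.Agent.P241Z
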