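import Vale.Agent.P241Z.Fix
import Vale.Agent.P241.H399.Block
import Vale.Agent.P241.Final.Low2
import Vale.Agent.P241.EX.Exists
import Vale.Agent.P251.St.Result
import Vale.Agent.P241.H399.ConeG
import Vale.Agent.P241.H132.XaGFC
import Vale.Agent.P241.H891.Final

/-!
# P241, genuine `G`-spectra: from spaces to finite `p`-local genuine `G`-spectra

`forces_iff` : the implication holds for all finite `p`-local genuine `G`-spectra if and only if
it holds for all finite `G`-cell spaces.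
-/

open CategoryTheory MonoidalCategory OnePoint Limits Idempotents

noncomputable section

namespace Vale.Agent.P241Z

open Vale.Agent.P251 Vale.Agent.P251.St Vale.Agent.P241.St Vale.Agent.P241 Vale.Agent.P251.G
open Vale.Agent.P251.G.LC Vale.Agent.P241.Geo Vale.Agent.P093.PLoc Vale.Agent.P241.H241
open Vale.Agent.P251.I
open Vale.Agent.P241Y (PLocal IsPLoc)

section T

variable {T : SHCat} {p : ℕ}

theorem acyclic_iff {K W : T.C} : St.Acyclic K W ↔ IsZero (K ⊗ W) :=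
  (IsZero.iff_id_eq_zero _).symm

theorem whiskerLeft_shift_eq_zero (K : T.C) {A B : T.C} (f : A ⟶ B) (n : ℤ) :
    K ◁ f⟦n⟧' = 0 ↔ K ◁ f = 0 := by
  have h : K ◁ f⟦n⟧' ≫ ((tensorLeft K).commShiftIso n).hom.app B =
      ((tensorLeft K).commShiftIso n).hom.app A ≫ (K ◁ f)⟦n⟧' :=
    ((tensorLeft K).commShiftIso n).hom.naturality f
  constructor
  · intro h1
    rw [h1, zero_comp] at h
    have h2 : (K ◁ f)⟦n⟧' = 0 := by
      rw [← cancel_epi (((tensorLeft K).commShiftIso n).hom.app A), ← h, comp_zero]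
    exact (shiftFunctor T.C n).map_injective (by rw [h2, Functor.map_zero])
  · intro h1
    rw [h1, Functor.map_zero, comp_zero] at h
    rw [← cancel_mono (((tensorLeft K).commShiftIso n).hom.app B), h, zero_comp]

theorem acyclic_iff_whisker {K W : T.C} : St.Acyclic K W ↔ K ◁ 𝟙 W = 0 := by
  rw [MonoidalCategory.whiskerLeft_id]
  rfl

theorem acyclic_shift (K W : T.C) (n : ℤ) : St.Acyclic K (W⟦n⟧) ↔ St.Acyclic K W := by
  rw [acyclic_iff_whisker, acyclic_iff_whisker, ← whiskerLeft_shift_eq_zero K (𝟙 W) n,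
    CategoryTheory.Functor.map_id]

theorem acyclic_of_isIso {K A B : T.C} (f : A ⟶ B) (h : IsIso (K ◁ f)) :
    St.Acyclic K A ↔ St.Acyclic K B := by
  rw [acyclic_iff, acyclic_iff]
  exact (asIso (K ◁ f)).isZero_iff

theorem pLocal_of_div (K : RingA T) (h : ∀ m : ℕ, m.Coprime p → ∃ f, (m : ℤ) • f = K.unit) :
    PLocal p K.obj := by
  intro m hm
  obtain ⟨f, hf⟩ := h m hm
  have h1 : (m : ℤ) • ((λ_ K.obj).inv ≫ f ▷ K.obj ≫ K.mul) = 𝟙 K.obj := by
    rw [← Preadditive.comp_zsmul, ← Preadditive.zsmul_comp, ← whiskerRight_zsmul, hf]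
    exact (congrArg ((λ_ K.obj).inv ≫ ·) (MonObj.one_mul K.obj)).trans (λ_ K.obj).inv_hom_id
  exact ⟨_, (zsmul_id_comp _ _).trans h1, (comp_zsmul_id _ _).trans h1⟩

theorem pLocal_moravaK {S : Susp T} (hp : p.Prime) {i : ℕ} {K : RingA T}
    (h : IsMoravaK S p i K) : PLocal p K.obj := by
  refine pLocal_of_div K fun m hm => ?_
  unfold IsMoravaK at h
  split_ifs at h with hi
  · have hm0 : (m : ℤ) ≠ 0 := by
      rintro h0
      have h1 : m = 0 := by exact_mod_cast h0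
      rw [h1, Nat.coprime_zero_left] at hm
      exact hp.one_lt.ne' hm
    exact (h.div m hm0).2 K.unit
  · obtain ⟨a, b, hab⟩ := Nat.isCoprime_iff_coprime.mpr hm
    have h1 : (p : ℤ) • K.unit = 0 := h.1.char
    refine ⟨a • K.unit, ?_⟩
    have h2 : (a * m + b * p) • K.unit = K.unit := by rw [hab, one_smul]
    rw [add_smul, mul_smul b, h1, smul_zero, add_zero, mul_comm, mul_smul] at h2
    exact h2

theorem isIso_whisker_ploc {A B K : T.C} {f : A ⟶ B} (h : IsPLoc p f) (hK : PLocal p K) :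
    IsIso (K ◁ f) := by
  have key : ∀ Z : T.C, IsPLocal p Z → Function.Bijective fun g : K ⊗ B ⟶ Z => K ◁ f ≫ g := by
    intro Z hZ
    have h1 : (fun g : K ⊗ B ⟶ Z => K ◁ f ≫ g) = ((ihom.adjunction K).homEquiv A Z).symm ∘
        (fun g : B ⟶ (ihom K).obj Z => f ≫ g) ∘ (ihom.adjunction K).homEquiv B Z := by
      funext g
      exact (((ihom.adjunction K).homEquiv A Z).eq_symm_apply).mpr
        ((ihom.adjunction K).homEquiv_naturality_left f g)
    rw [h1]
    exact ((ihom.adjunction K).homEquiv A Z).symm.bijective.comp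
      ((h.2 _ (hZ.map (ihom K))).comp ((ihom.adjunction K).homEquiv B Z).bijective)
  obtain ⟨g, hg⟩ := (key _ (IsPLocal.tensor_right hK A)).2 (𝟙 _)
  have hg' : K ◁ f ≫ g = 𝟙 _ := hg
  refine ⟨g, hg', (key _ (IsPLocal.tensor_right hK B)).1 ?_⟩
  change K ◁ f ≫ g ≫ K ◁ f = K ◁ f ≫ 𝟙 _
  rw [← Category.assoc, hg', Category.id_comp, Category.comp_id]

theorem isIso_sub_iff {W : T.C} (hW : IsPLocal p W) {m : ℕ} (hm : m.Coprime p) {e : W ⟶ W}
    (he : e ≫ e = e) : IsIso ((m : ℤ) • 𝟙 W - (m : ℤ) • e) ↔ e = 0 := by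
  have h1 := hW m hm
  constructor
  · intro h
    have h2 : ((m : ℤ) • 𝟙 W - (m : ℤ) • e) ≫ e = 0 := by
      rw [Preadditive.sub_comp, zsmul_id_comp, Preadditive.zsmul_comp, he, sub_self]
    rw [← cancel_epi ((m : ℤ) • 𝟙 W - (m : ℤ) • e), h2, comp_zero]
  · rintro rfl
    rw [smul_zero, sub_zero]
    exact h1

end T

variable {G : Type} [Group G] [Finite G] {T : SHCat} {S : Susp T} {p : ℕ}

/-! ### the cone of `m - f` -/

/-- the list for `m - f` -/
def subList {X : GSpace G} (f : EMap X X) : ℕ → List (Bool × EMap X X)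
  | 0 => [(false, f)]
  | m + 1 => (true, EMap.id X) :: subList f m

theorem exists_cone (S : Susp T) (X : GFin G) (f : X ⟶ X) (m : ℕ) :
    ∃ Z : GSpace G, GFC G Z ∧ ∀ (V : Subgroup G) (K : T.C), St.Acyclic K (S.obj (Z.fix V)) ↔
      IsIso (K ◁ ((m : ℤ) • 𝟙 (S.obj (X.sp.fix V)) - S.map (fixM f V))) := by
  let c := subList (EMap.ofMap f.1 f.2) m
  have hZ : GFC G (gcone (glin c).1 (glin c).2) :=
    gfc_gcone' _ _ (H32.gfc_xt X.gfc H399.fc_Rr)
      (H32.gfc_xt (H32.gfc_xt X.gfc H399.fc_Rr) H399.fc_Rr)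
  refine ⟨_, hZ, fun V K => ?_⟩
  have hA := fc_fix X.gfc V
  have hAR : St.FC (ofLC (fixL X.sp V ⊗ RR)) := fc_prod hA H399.fc_Rr
  have hAR' : St.FC ((xt X.sp Rr).fix V) := H399.fc_of_isoL hAR (fixXt X.sp Rr V)
  let XF : FCat := ⟨fixL X.sp V, fc_toLC hA⟩
  let cF : List (Bool × (XF ⟶ XF)) := c.map fun u => (u.1, FCat.hom (u.2.fix V))
  have hc : (cF.map fun u => (u.1, u.2.hom)) = c.map fun u => (u.1, u.2.fix V) := by
    rw [List.map_map]
    rfl
  obtain ⟨a, b, h1⟩ := (isConeOf_fix (glin c).1 (glin c).2 S V hAR' hAR' (fc_fix hZ V)).of_arrow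
    (f' := S.mapL (lin (cF.map fun u => (u.1, u.2.hom))))
    (H399.mapIsoL S hAR hAR' (fixXt X.sp Rr V)).symm
    (H399.mapIsoL S hAR hAR' (fixXt X.sp Rr V)).symm (by
      change S.mapL ((glin c).fix V) ≫ S.mapL (fixXt X.sp Rr V).inv =
        S.mapL (fixXt X.sp Rr V).inv ≫ S.mapL (lin (cF.map fun u => (u.1, u.2.hom)))
      rw [← H399.mapL_comp S hAR' hAR' hAR, ← H399.mapL_comp S hAR' hAR hAR, hc]
      congr 1
      have h := fixXt_glin c V
      rw [Iso.comp_inv_eq, Category.assoc, Iso.eq_inv_comp]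
      exact h)
  have h2 := isZero_tensor_iff_of_lin (X := XF) (Y := XF) S.toSpaceFunctor cF
    (C := S.obj ((gcone (glin c).1 (glin c).2).fix V)) (g := a) (h := b) h1 K
  have h3 : ∀ j : ℕ, combS (X := XF) (Y := XF) S.toSpaceFunctor
      ((subList (EMap.ofMap f.1 f.2) j).map fun u => (u.1, FCat.hom (u.2.fix V))) =
      (j : ℤ) • 𝟙 (S.obj (X.sp.fix V)) - S.map (fixM f V) := by
    intro j
    induction j with
    | zero =>
      have e : fixM f V = ofHom ((EMap.ofMap f.1 f.2).fix V) :=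
        map_ext ((fixM_spec f V).uniq V (isRes_fixMap V (toHom f.1) _))
      rw [Nat.cast_zero, zero_smul, zero_sub, e]
      exact (add_zero _).trans (neg_one_zsmul _)
    | succ j ih =>
      have e : S.toSpaceFunctor.S.map (FCat.hom ((EMap.id X.sp).fix V) : XF ⟶ XF) =
          𝟙 (S.obj (X.sp.fix V)) := by
        rw [EMap.fix_id]
        exact S.toSpaceFunctor.S.map_id XF
      refine (combS_cons S.toSpaceFunctor (X := XF) (Y := XF)
        (true, FCat.hom ((EMap.id X.sp).fix V)) _).trans ?_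
      have key : ∀ {W : T.C} (x y z : W ⟶ W), x = 𝟙 W → y = (j : ℤ) • 𝟙 W - z →
          (1 : ℤ) • x + y = ((j + 1 : ℕ) : ℤ) • 𝟙 W - z := by
        intro W x y z hx hy
        rw [hx, hy, Nat.cast_succ, add_smul]
        abel
      exact key _ _ _ e ih
  rw [acyclic_iff, h2, h3 m]
  rfl

theorem isIso_conj {T : SHCat} {K A B : T.C} (θ : A ⟶ B) (h : IsIso (K ◁ θ)) {a : A ⟶ A}
    {b : B ⟶ B} (hab : a ≫ θ = θ ≫ b) : IsIso (K ◁ a) ↔ IsIso (K ◁ b) := by
  have h1 : K ◁ a ≫ K ◁ θ = K ◁ θ ≫ K ◁ b := by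
    rw [← MonoidalCategory.whiskerLeft_comp, hab, MonoidalCategory.whiskerLeft_comp]
  rw [← isIso_comp_right_iff (K ◁ a) (K ◁ θ), h1, isIso_comp_left_iff]

end Vale.Agent.P241Z

namespace Vale.Agent.P241Y

open Vale.Agent.P251 Vale.Agent.P251.St Vale.Agent.P241.St Vale.Agent.P241
open Vale.Agent.P093.PLoc P241Z

variable {G : Type} [Group G] [Finite G] {T : SHCat} {S : Susp T} {p : ℕ}

/-! ### computations in the category given by generators and relations -/

/-- the object of `Gr G` -/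
def ob (A : Ob G) : Gr G := (toGr G).obj A

/-- the morphism of `Gr G` given by an edge -/
def cl {A B : Ob G} (e : Edge A B) : ob A ⟶ ob B := (toGr G).map (one e)

theorem cl_two {A B C : Ob G} (e : Edge A B) (e' : Edge B C) :
    cl e ≫ cl e' = (toGr G).map (two e e') := ((toGr G).map_comp (one e) (one e')).symm

theorem toGr_sound {A B : Ob G} {x y : Quiver.Path A B} (h : Rel x y) :
    (toGr G).map x = (toGr G).map y :=
  CategoryTheory.Quotient.sound (C := Fr G) (@Rel G _ _) h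

theorem cl_id {A : Ob G} (f : GMap A.sp A.sp) (a : A.k = A.k) (hf : f.fn = id) :
    cl (.map f a) = 𝟙 (ob A) :=
  (toGr_sound (.id f a hf)).trans ((toGr G).map_id A)

theorem cl_comp {A B C : Ob G} (f : GMap A.sp B.sp) (g : GMap B.sp C.sp) (h : GMap A.sp C.sp)
    (a : B.k = A.k) (b : C.k = B.k) (c : C.k = A.k) (hh : g.fn ∘ f.fn = h.fn) :
    cl (.map f a) ≫ cl (.map g b) = cl (.map h c) :=
  (cl_two _ _).trans (toGr_sound (.comp f g h a b c (by
    rw [hh]
    exact ⟨fun _ => h.fn, ⟨⟨h.cont.comp continuous_snd, fun _ => h.pt⟩, fun _ => h.eqv⟩, rfl,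
      rfl⟩)))

theorem cl_nat {A B A' B' : Ob G} (f : GMap A.sp B.sp) (u : GMap (B.sp.prod (regLine G)) B'.sp)
    (u' : GMap (A.sp.prod (regLine G)) A'.sp) (f' : GMap A'.sp B'.sp) (a : B.k = A.k)
    (b : B'.k = B.k + 1) (c : A'.k = A.k + 1) (d : B'.k = A'.k)
    (h : ∀ x (y : (regLine G).und.Pt), u.fn (smash (f.fn x) y) = f'.fn (u'.fn (smash x y))) :
    cl (.map f a) ≫ cl (.up u b) = cl (.up u' c) ≫ cl (.map f' d) :=
  (cl_two _ _).trans ((toGr_sound (.nat f u u' f' a b c d h)).trans (cl_two _ _).symm)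

/-- the identity -/
def gid (X : GSpace G) : GMap X X := toY (P241Z.GMap.id X)

/-- the suspension of an object -/
def Ob.up (A : Ob G) : Ob G := mkOb ((susp G).obj (gf A)) (A.k + 1)

/-- the canonical edge to the suspension -/
def upE (A : Ob G) : Edge A A.up := .up (gid _) rfl

/-- the suspension of a map -/
def sus {A B : Ob G} (f : GMap A.sp B.sp) : GMap A.up.sp B.up.sp :=
  toY ((susp G).map (X := gf A) (Y := gf B) (toZ f))

theorem cl_map_up {A B : Ob G} (f : GMap A.sp B.sp) (a : B.k = A.k) :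
    cl (.map f a) ≫ cl (upE B) = cl (upE A) ≫ cl (.map (sus f) (congrArg (· + 1) a)) :=
  cl_nat (A' := A.up) (B' := B.up) f (gid _) (gid _) (sus f) a rfl rfl _ fun x y =>
    (smashFun_smash (X := A.sp.und) (X' := B.sp.und) (g := id) f.pt rfl x y).symm

theorem cl_up {A B : Ob G} (u : GMap (A.sp.prod (regLine G)) B.sp) (h : B.k = A.k + 1) :
    cl (.up u h) = cl (upE A) ≫ cl (A := A.up) (.map u h) := by
  have h1 := cl_nat (A' := A.up) (gid A.sp) u (gid _) u rfl h rfl h fun _ _ => rfl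
  rw [cl_id _ _ rfl, Category.id_comp] at h1
  exact h1

/-- the iterated suspensions -/
def it (A : Ob G) : ℕ → Ob G
  | 0 => A
  | n + 1 => (it A n).up

theorem it_k (A : Ob G) (n : ℕ) : (it A n).k = A.k + n := by
  induction n with
  | zero => rfl
  | succ n ih => exact congrArg (· + 1) ih

/-- the canonical morphisms to the iterated suspensions -/
def upG (A : Ob G) : ∀ n, ob A ⟶ ob (it A n)
  | 0 => 𝟙 _
  | n + 1 => upG A n ≫ cl (upE (it A n))

theorem isIso_upG (A : Ob G) (n : ℕ) : IsIso ((W G p).Q.map (upG A n)) := by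
  induction n with
  | zero => exact (congrArg IsIso ((W G p).Q.map_id _)).mpr (IsIso.id _)
  | succ n ih =>
    have h : IsIso ((W G p).Q.map (cl (upE (it A n)))) :=
      (W G p).Q_inverts _ ⟨Inv.up (p := p) (A := it A n) (B := (it A n).up) (gid _) rfl
        Function.bijective_id⟩
    exact (congrArg IsIso ((W G p).Q.map_comp _ _)).mpr (@IsIso.comp_isIso _ _ _ _ _ _ _ ih h)

/-! ### fractions -/

/-- the restriction of a functor to the localisation -/
def res (Φ : FinSp G p ⥤ T.C) : (W G p).Localization ⥤ T.C := toKaroubi (Loc G p) ⋙ Φ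

theorem map_deg {V : Subgroup G} {Φ : FinSp G p ⥤ T.C} (hΦ : IsGeomFix S V Φ) {m : ℕ}
    {d : Map Rr Rr} (hd : IsDeg m d) (X : GFin G) (k : ℕ)
    (f : X.prod (lineF G) ⟶ X.prod (lineF G))
    (hf : ∀ (x : X.sp.und.Pt) (y : Rr.Pt), f.1.toFun (smash x y) = smash x (d.toFun y)) :
    (res Φ).map ((W G p).Q.map (cl (A := mkOb (X.prod (lineF G)) k) (.map (toY f) rfl))) =
      (m : ℤ) • 𝟙 _ := by
  obtain ⟨θ, h1, h2⟩ := (isFix_iff S p V _ _).mp hΦ
  have h3 := h2 _ _ k f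
  rw [fixF_deg S V hd X f hf] at h3
  refine (shiftFunctor T.C ((k * (V.index + 1) : ℕ) : ℤ)).map_injective
    (((h1 (mkOb (X.prod (lineF G)) k)).2 _ (h1 (mkOb (X.prod (lineF G)) k)).1).1
      (h3.symm.trans ?_))
  have key : ∀ {A B : T.C} (n : ℤ) (t : A ⟶ B⟦n⟧),
      ((m : ℤ) • 𝟙 A) ≫ t = t ≫ ((m : ℤ) • 𝟙 B)⟦n⟧' := by
    intro A B n t
    rw [Functor.map_zsmul, CategoryTheory.Functor.map_id, zsmul_id_comp, comp_zsmul_id]
  exact key _ _

variable (S) in
/-- a morphism of the localisation as a fraction -/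
def Frac {A B : Ob G} (φ : (W G p).Q.obj (ob A) ⟶ (W G p).Q.obj (ob B)) (m a b : ℕ) : Prop :=
  ∃ (f : GMap (it A a).sp (it B b).sp) (h : (it B b).k = (it A a).k),
    ∀ (V : Subgroup G) (Φ : FinSp G p ⥤ T.C), IsGeomFix S V Φ →
      (m : ℤ) • ((res Φ).map φ ≫ (res Φ).map ((W G p).Q.map (upG B b))) =
        (res Φ).map ((W G p).Q.map (upG A a ≫ cl (.map f h)))

theorem Frac.succ {A B : Ob G} {φ : (W G p).Q.obj (ob A) ⟶ (W G p).Q.obj (ob B)} {m a b : ℕ}
    (h : Frac S φ m a b) : Frac S φ m (a + 1) (b + 1) := by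
  obtain ⟨f, h, hf⟩ := h
  refine ⟨sus f, congrArg (· + 1) h, fun V Φ hΦ => ?_⟩
  have h1 : upG A (a + 1) ≫ cl (A := it A (a + 1)) (B := it B (b + 1))
      (.map (sus f) (congrArg (· + 1) h)) = (upG A a ≫ cl (.map f h)) ≫ cl (upE (it B b)) :=
    (Category.assoc _ _ _).trans ((congrArg (upG A a ≫ ·) (cl_map_up f h).symm).trans
      (Category.assoc _ _ _).symm)
  have key : ∀ {X Y Z U : Gr G} (ψ : (W G p).Q.obj X ⟶ (W G p).Q.obj Y) (x : Y ⟶ Z) (y : X ⟶ Z)
      (z : Z ⟶ U), (m : ℤ) • ((res Φ).map ψ ≫ (res Φ).map ((W G p).Q.map x)) =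
        (res Φ).map ((W G p).Q.map y) →
      (m : ℤ) • ((res Φ).map ψ ≫ (res Φ).map ((W G p).Q.map (x ≫ z))) =
        (res Φ).map ((W G p).Q.map (y ≫ z)) := by
    intro X Y Z U ψ x y z h
    rw [Functor.map_comp, Functor.map_comp, Functor.map_comp, Functor.map_comp, ← h,
      Preadditive.zsmul_comp, Category.assoc]
  exact (key _ _ _ _ (hf V Φ hΦ)).trans (congrArg (fun z => (res Φ).map ((W G p).Q.map z)) h1.symm)

theorem Frac.add {A B : Ob G} {φ : (W G p).Q.obj (ob A) ⟶ (W G p).Q.obj (ob B)} {m a b : ℕ}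
    (h : Frac S φ m a b) (n : ℕ) : Frac S φ m (a + n) (b + n) := by
  induction n with
  | zero => exact h
  | succ n ih => exact ih.succ

theorem Frac.comp {A B C : Ob G} {φ : (W G p).Q.obj (ob A) ⟶ (W G p).Q.obj (ob B)}
    {ψ : (W G p).Q.obj (ob B) ⟶ (W G p).Q.obj (ob C)} {m m' a b c : ℕ}
    (h : Frac S φ m a b) (h' : Frac S ψ m' b c) : Frac S (φ ≫ ψ) (m * m') a c := by
  obtain ⟨f, h, hf⟩ := h
  obtain ⟨g, h', hg⟩ := h'
  refine ⟨toY ((toZ f).comp (toZ g)), h'.trans h, fun V Φ hΦ => ?_⟩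
  rw [← cl_comp f g _ h h' _ rfl, ← Category.assoc (upG A a),
    Functor.map_comp (W G p).Q (upG A a ≫ _), Functor.map_comp (res Φ) ((W G p).Q.map _),
    ← hf V Φ hΦ, Preadditive.zsmul_comp, Category.assoc, ← Functor.map_comp (res Φ) ((W G p).Q.map _),
    ← Functor.map_comp (W G p).Q, ← hg V Φ hΦ, Preadditive.comp_zsmul, Functor.map_comp,
    Category.assoc, Nat.cast_mul, mul_smul]

theorem frac_of_eq {A B : Ob G} {φ : (W G p).Q.obj (ob A) ⟶ (W G p).Q.obj (ob B)} {a b : ℕ}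
    (f : GMap (it A a).sp (it B b).sp) (h : (it B b).k = (it A a).k)
    (e : φ ≫ (W G p).Q.map (upG B b) = (W G p).Q.map (upG A a ≫ cl (.map f h))) :
    Frac S φ 1 a b :=
  ⟨f, h, fun _ Φ _ => by rw [Nat.cast_one, one_smul, ← Functor.map_comp, e]⟩

variable (S) in
/-- morphisms of the localisation which are fractions -/
def IsFrac : MorphismProperty (W G p).Localization := fun X Y φ =>
  ∃ m a b : ℕ, m.Coprime p ∧ Frac S (A := X.as.obj.as) (B := Y.as.obj.as) φ m a b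

theorem isFrac_comp {X Y Z : (W G p).Localization} {φ : X ⟶ Y} {ψ : Y ⟶ Z} (h : IsFrac S φ)
    (h' : IsFrac S ψ) : IsFrac S (φ ≫ ψ) := by
  obtain ⟨m, a, b, hm, h⟩ := h
  obtain ⟨m', a', b', hm', h'⟩ := h'
  have h1 := h'.add b
  rw [Nat.add_comm a' b] at h1
  exact ⟨m * m', _, _, Nat.Coprime.mul_left hm hm', (h.add a').comp h1⟩

theorem isFrac_path {A B : Ob G} (x : Quiver.Path A B) :
    IsFrac S ((W G p).Q.map ((toGr G).map x)) := by
  induction x with
  | nil =>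
    refine ⟨1, 0, 0, Nat.coprime_one_left p, frac_of_eq (A := A) (B := A) (gid _) rfl ?_⟩
    refine ((W G p).Q.map_comp _ _).symm.trans (congrArg (W G p).Q.map ?_)
    exact congrArg (· ≫ 𝟙 (ob A)) ((toGr G).map_id A) |>.trans
      (congrArg (𝟙 (ob A) ≫ ·) (cl_id (gid _) rfl rfl).symm)
  | @cons B C x e ih =>
    have h : (W G p).Q.map ((toGr G).map (x.cons e)) =
        (W G p).Q.map ((toGr G).map x) ≫ (W G p).Q.map (cl e) :=
      (toGr G ⋙ (W G p).Q).map_comp x (one e)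
    rw [h]
    refine isFrac_comp ih ?_
    clear h
    change Edge B C at e
    cases e with
    | map f h =>
      refine ⟨1, 0, 0, Nat.coprime_one_left p, frac_of_eq (A := B) (B := C) f h ?_⟩
      exact ((W G p).Q.map_comp _ _).symm.trans (congrArg (W G p).Q.map
        ((Category.comp_id _).trans (Category.id_comp _).symm))
    | up u h =>
      refine ⟨1, 1, 0, Nat.coprime_one_left p, frac_of_eq (A := B) (B := C) u h ?_⟩
      exact ((W G p).Q.map_comp _ _).symm.trans (congrArg (W G p).Q.map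
        ((Category.comp_id _).trans ((cl_up u h).trans
          (congrArg (· ≫ _) (Category.id_comp (cl (upE B))).symm))))

theorem frac_inv_up {A B : Ob G} (u : GMap (A.sp.prod (regLine G)) B.sp) (h : B.k = A.k + 1)
    (hu : Function.Bijective u.fn) (ψ : (W G p).Q.obj (ob B) ⟶ (W G p).Q.obj (ob A))
    (hψ : ψ ≫ (W G p).Q.map (cl (.up u h)) = 𝟙 _) : Frac S ψ 1 0 1 := by
  obtain ⟨v, hv, -⟩ := (isIso_of_bijective (X := (susp G).obj (gf A)) (Y := gf B) (toZ u) hu).out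
  have h1 : cl (A := A.up) (B := B) (.map u h) ≫ cl (A := B) (B := A.up) (.map (toY v) h.symm) =
      𝟙 _ :=
    (cl_comp (A := A.up) (B := B) (C := A.up) u (toY v) (gid _) h h.symm rfl
      (congrArg (fun z => z.1.toFun) hv)).trans (cl_id _ _ rfl)
  have h2 : upG A 1 = cl (.up u h) ≫ cl (A := B) (B := A.up) (.map (toY v) h.symm) := by
    rw [cl_up, Category.assoc, h1]
    exact (Category.id_comp _).trans (Category.comp_id _).symm
  refine frac_of_eq (a := 0) (b := 1) (toY v) h.symm ?_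
  refine (congrArg (fun z => ψ ≫ (W G p).Q.map z) h2).trans ?_
  refine (congrArg (ψ ≫ ·) ((W G p).Q.map_comp _ _)).trans ((Category.assoc _ _ _).symm.trans ?_)
  rw [hψ]
  exact (Category.id_comp _).trans (congrArg (W G p).Q.map (Category.id_comp _).symm)

theorem frac_inv_deg {A : Ob G} (w : ob A ⟶ ob A) {m : ℕ}
    (hw : ∀ (V : Subgroup G) (Φ : FinSp G p ⥤ T.C), IsGeomFix S V Φ →
      (res Φ).map ((W G p).Q.map w) = (m : ℤ) • 𝟙 _)
    (ψ : (W G p).Q.obj (ob A) ⟶ (W G p).Q.obj (ob A)) (hψ : (W G p).Q.map w ≫ ψ = 𝟙 _) :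
    Frac S ψ m 0 0 := by
  refine ⟨gid _, rfl, fun V Φ hΦ => ?_⟩
  have h1 := congrArg (res Φ).map hψ
  rw [Functor.map_comp, hw V Φ hΦ, zsmul_id_comp] at h1
  have h2 : upG A 0 ≫ cl (A := it A 0) (B := it A 0) (.map (gid _) rfl) = 𝟙 (ob A) :=
    (Category.id_comp _).trans (cl_id _ _ rfl)
  refine Eq.trans ?_ (congrArg (fun z => (res Φ).map ((W G p).Q.map z)) h2).symm
  have h3 : (m : ℤ) • ((res Φ).map ψ ≫ (res Φ).map ((W G p).Q.map (𝟙 (ob A)))) =
      (res Φ).map ((W G p).Q.map (𝟙 (ob A))) := by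
    rw [CategoryTheory.Functor.map_id (W G p).Q, ← Functor.map_comp, Category.comp_id, h1]
  exact h3

theorem isFrac {X Y : (W G p).Localization} (φ : X ⟶ Y) : IsFrac S φ := by
  have : (IsFrac (G := G) (p := p) S).IsStableUnderComposition :=
    ⟨fun _ _ h h' => isFrac_comp h h'⟩
  have h := Localization.Construction.morphismProperty_eq_top (IsFrac (G := G) (p := p) S)
    (by
      intro X Y f
      have : (toGr G).Full := CategoryTheory.Quotient.full_functor _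
      obtain ⟨x, rfl⟩ := (toGr G).map_surjective (X := X.as) (Y := Y.as) f
      exact isFrac_path x)
    (by
      rintro _ _ _ ⟨h⟩
      cases h with
      | up u h hu =>
        exact ⟨1, 0, 1, Nat.coprime_one_left p, frac_inv_up u h hu _
          (Localization.Construction.wIso _ _).inv_hom_id⟩
      | @deg X h k m e f hX hm he hf =>
        exact ⟨m, 0, 0, hm, frac_inv_deg _
          (fun V Φ hΦ => map_deg hΦ he ⟨X, gCell_iff.mp hX⟩ k (toZ f) hf) _
          (Localization.Construction.wIso _ _).hom_inv_id⟩)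
  rw [h]
  trivial

/-! ### the comparison -/

theorem acyclic_iff_p (Φ : FinSp G p ⥤ T.C) (Y : Karoubi (Loc G p)) (K : T.C) :
    St.Acyclic K (Φ.obj Y) ↔ K ◁ (res Φ).map Y.p = 0 := by
  have key : ∀ Φ : Karoubi (Loc G p) ⥤ T.C,
      St.Acyclic K (Φ.obj Y) ↔ K ◁ Φ.map ((toKaroubi _).map Y.p) = 0 := by
    intro Φ
    rw [acyclic_iff_whisker]
    have h1 : Φ.map ((toKaroubi _).map Y.p) =
        Φ.map (Karoubi.decompId_p Y) ≫ Φ.map (Karoubi.decompId_i Y) := by
      rw [Karoubi.decomp_p, Functor.map_comp]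
    have h2 : Φ.map (Karoubi.decompId_i Y) ≫ Φ.map (Karoubi.decompId_p Y) = 𝟙 _ := by
      rw [← Functor.map_comp, ← Karoubi.decompId, CategoryTheory.Functor.map_id]
    constructor
    · intro h
      rw [h1, ← Category.id_comp (Φ.map (Karoubi.decompId_i Y)), MonoidalCategory.whiskerLeft_comp,
        MonoidalCategory.whiskerLeft_comp, h, zero_comp, comp_zero]
    · intro h
      have h3 : 𝟙 (Φ.obj Y) = Φ.map (Karoubi.decompId_i Y) ≫
          Φ.map ((toKaroubi _).map Y.p) ≫ Φ.map (Karoubi.decompId_p Y) := by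
        rw [h1, Category.assoc, h2, Category.comp_id, h2]
      rw [h3, MonoidalCategory.whiskerLeft_comp, MonoidalCategory.whiskerLeft_comp, h, zero_comp,
        comp_zero]
  exact key Φ

/-- the algebraic part of the comparison -/
theorem isIso_iff_aux {K A B D : T.C} (hK : PLocal p K) {m : ℕ} (hm : m.Coprime p) (n : ℤ)
    (θ : A ⟶ B⟦n⟧) (hθ : IsPLoc p θ) (a : A ⟶ A) (b : B ⟶ B) (hab : a ≫ θ = θ ≫ b⟦n⟧')
    (U : D ⟶ B) [IsIso U] (ε : D ⟶ D) (hε : ε ≫ ε = ε) (h : (m : ℤ) • (ε ≫ U) = U ≫ b) :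
    IsIso (K ◁ ((m : ℤ) • 𝟙 A - a)) ↔ K ◁ ε = 0 := by
  let ε' : B ⟶ B := inv U ≫ ε ≫ U
  have h1 : ε' ≫ ε' = ε' := by
    simp only [ε', Category.assoc, IsIso.hom_inv_id_assoc, reassoc_of% hε]
  have h3 : (m : ℤ) • ε' = b := by
    rw [← Preadditive.comp_zsmul, h, IsIso.inv_hom_id_assoc]
  have h4 : ((m : ℤ) • 𝟙 _ - a) ≫ θ = θ ≫ ((m : ℤ) • 𝟙 _ - (m : ℤ) • ε'⟦n⟧') := by
    rw [Preadditive.sub_comp, Preadditive.comp_sub, hab, ← h3, Functor.map_zsmul, zsmul_id_comp,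
      comp_zsmul_id]
  have h5 := isIso_conj _ (isIso_whisker_ploc hθ hK) h4
  have h7 : K ◁ ((m : ℤ) • 𝟙 _ - (m : ℤ) • ε'⟦n⟧') = (m : ℤ) • 𝟙 _ - (m : ℤ) • K ◁ ε'⟦n⟧' := by
    refine ((tensorLeft K).map_sub).trans ?_
    change K ◁ _ - K ◁ _ = _
    rw [whiskerLeft_zsmul, whiskerLeft_zsmul, MonoidalCategory.whiskerLeft_id]
  rw [h7, isIso_sub_iff (IsPLocal.tensor_right hK _) hm (by
    rw [← MonoidalCategory.whiskerLeft_comp, ← Functor.map_comp, h1]),
    whiskerLeft_shift_eq_zero] at h5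
  refine h5.trans ⟨fun h6 => ?_, fun h6 => ?_⟩
  · have h8 : ε = U ≫ ε' ≫ inv U := by
      simp only [ε', Category.assoc, IsIso.hom_inv_id_assoc, IsIso.hom_inv_id, Category.comp_id]
    rw [h8, MonoidalCategory.whiskerLeft_comp, MonoidalCategory.whiskerLeft_comp, h6, zero_comp,
      comp_zero]
  · rw [MonoidalCategory.whiskerLeft_comp, MonoidalCategory.whiskerLeft_comp, h6, zero_comp,
      comp_zero]

/-- For a finite `p`-local `G`-spectrum `Y` there is a finite `G`-cell space with the same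
acyclicity of the fixed points (a suspension of `Y ⊕ Y⟦1⟧`). -/
theorem exists_space (S : Susp T) (Y : Karoubi (Loc G p)) : ∃ Z : GSpace G, GFC G Z ∧
    ∀ (V : Subgroup G) (Φ : FinSp G p ⥤ T.C), IsGeomFix S V Φ → ∀ K : T.C, PLocal p K →
      (St.Acyclic K (S.obj (Z.fix V)) ↔ St.Acyclic K (Φ.obj Y)) := by
  obtain ⟨m, a, b, hm, hf⟩ := isFrac (S := S) (G := G) (p := p) Y.p
  obtain rfl : b = a := by
    obtain ⟨f, h, -⟩ := hf
    exact Nat.add_left_cancel ((it_k _ b).symm.trans (h.trans (it_k _ a)))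
  obtain ⟨f, h, hf⟩ := hf
  obtain ⟨Z, hZ, h1⟩ := exists_cone S (gf (it Y.X.as.obj.as b)) (toZ f) m
  refine ⟨Z, hZ, fun V Φ hΦ K hK => (h1 V K).trans (Iff.trans ?_ (acyclic_iff_p Φ Y K).symm)⟩
  obtain ⟨θ, h2, h3⟩ := (isFix_iff S p V _ _).mp hΦ
  have h4 := isIso_upG (p := p) Y.X.as.obj.as b
  have h5 : IsIso ((res Φ).map ((W G p).Q.map (upG Y.X.as.obj.as b))) := (res Φ).map_isIso _
  refine @isIso_iff_aux T p K _ _ _ hK m hm _ (θ (it Y.X.as.obj.as b)) (h2 _) _ _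
    (h3 (gf (it Y.X.as.obj.as b)) (gf (it Y.X.as.obj.as b)) (it Y.X.as.obj.as b).k (toZ f)) _ h5
    ((res Φ).map Y.p) (((res Φ).map_comp Y.p Y.p).symm.trans (congrArg (res Φ).map Y.idem)) ?_
  exact (hf V Φ hΦ).trans (((W G p).Q ⋙ res Φ).map_comp _ _)

theorem acyclic_space {V : Subgroup G} {Φ : FinSp G p ⥤ T.C} (hΦ : IsGeomFix S V Φ) (X : GFin G)
    {K : T.C} (hK : PLocal p K) :
    St.Acyclic K (Φ.obj ((toFin G p).obj (mkOb X 0))) ↔ St.Acyclic K (S.obj (X.sp.fix V)) := by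
  obtain ⟨θ, h, -⟩ := (isFix_iff S p V _ _).mp hΦ
  exact ((acyclic_of_isIso _ (isIso_whisker_ploc (h (mkOb X 0)) hK)).trans
    (acyclic_shift K _ _)).symm

/-- **Spaces and finite `p`-local genuine spectra give the same loss.** -/
theorem forces_iff {K : ℕ → RingA T} (hK : ∀ i, PLocal p (K i).obj) {H : Subgroup G}
    {Φ Ψ : FinSp G p ⥤ T.C} (hΦ : IsGeomFix S H Φ) (hΨ : IsGeomFix S ⊤ Ψ) (n r : ℕ) :
    Forces K Φ.obj Ψ.obj n r ↔ St.Forces S (fun i => toSt (K i)) H n r := by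
  constructor
  · intro h X hX h1
    exact (acyclic_space hΨ ⟨X, hX⟩ (hK _)).mp (h _ ((acyclic_space hΦ ⟨X, hX⟩ (hK _)).mpr h1))
  · intro h Y h1
    obtain ⟨Z, hZ, h2⟩ := exists_space S Y
    exact (h2 _ Ψ hΨ _ (hK _)).mp (h Z hZ ((h2 _ Φ hΦ _ (hK _)).mpr h1))

theorem spaces (G : Type) [Group G] [Finite G] (X : GSpace G) (hX : GCell X) :
    GCell (X.prod (regLine G)) ∧ ∀ H, FC (X.fix H) ∧
      ∀ Y (f : GMap X Y), ∃ g : Map _ _, IsRes H f.fn g.toFun :=
  ⟨gCell_iff.mpr (gfc_susp (gCell_iff.mp hX)), fun H =>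
    ⟨fc_fix (gCell_iff.mp hX) H, fun _ f => exists_res H (toZ f).1 f.eqv⟩⟩

theorem exists_moravaK (S : Susp T) (hp : p.Prime) :
    ∃ K : ℕ → RingA T, ∀ i, IsMoravaK S p i (K i) := by
  have := Fact.mk hp
  obtain ⟨K, hK⟩ := EX.exists_moravaK S p
  exact ⟨fun i => ofSt (K i), fun i => isMoravaK_iff.mpr (hK i)⟩

theorem smith (hp : p.Prime) (H : Subgroup G) (K : ℕ → RingA T)
    (hK : ∀ i, IsMoravaK S p i (K i)) (hG : IsPGroup p G) (Φ Ψ : FinSp G p ⥤ T.C)
    (hΦ : IsGeomFix S H Φ) (hΨ : IsGeomFix S ⊤ Ψ) (n : ℕ) :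
    loss K Φ.obj Ψ.obj n = ell H ∧ ∀ r, Forces K Φ.obj Ψ.obj n r ↔ ell H ≤ r := by
  have := Fact.mk hp
  have hL : LowerBound S p := Final.lowerBound_of_cone S p
    (H399.coneG_of_gfc S p (fun _ _ _ _ _ hX hS => H32.gfc_xt hX hS) H132.xaGFC)
  have hK' : ∀ i, St.IsMoravaK S p i (toSt (K i)) := fun i => isMoravaK_iff.mp (hK i)
  obtain ⟨h3, h4⟩ := H891.smith_of_lower S p hL _ hK' G hG H n
  have h5 := forces_iff (K := K) (fun i => pLocal_moravaK hp (hK' i)) hΦ hΨ n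
  exact ⟨(congrArg sInf (Set.ext h5)).trans h3, fun r => (h5 r).trans (h4 r)⟩

end Vale.Agent.P241Y
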