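import Vale.Agent.P241Z.D1
import Vale.Agent.P241Z.Deg
import Vale.Agent.P251.M.SpaceConn
import Vale.Agent.P093.N.PLocSp

/-!
# P241, genuine `G`-spectra: the multiplication by an integer

* `fixMul` : the suspension spectrum of the fixed points of a product;
* `fixF_deg` : the effect of a map of degree `m` on the suspension spectra of the fixed points.
-/

open CategoryTheory MonoidalCategory OnePoint

noncomputable section

namespace Vale.Agent.P241Z

open Vale.Agent.P251 Vale.Agent.P251.St Vale.Agent.P241.St Vale.Agent.P241 Vale.Agent.P251.G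
open Vale.Agent.P251.G.LC Vale.Agent.P241.Geo

variable {G : Type} [Group G] [Finite G]

/-! ### suspension spectra of fixed points -/

variable {T : SHCat} (S : Susp T) (H : Subgroup G)

omit [Finite G] in
theorem IsRes.comm {X Y : GSpace G} {f : Map X.und Y.und} {g : Map (X.fix H) (Y.fix H)}
    (h : IsRes H f.toFun g.toFun) : toHom g ≫ fixι Y H = fixι X H ≫ toHom f :=
  app_ext h

/-- the product of two finite `G`-cell spaces -/
abbrev GFin.prod (X Y : GFin G) : GFin G := ⟨X.sp.prod Y.sp, H32.gfc_prod X.gfc Y.gfc⟩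

/-- the suspension spectrum of the fixed points of a product -/
def fixMul (X Y : GFin G) :
    S.obj (X.sp.fix H) ⊗ S.obj (Y.sp.fix H) ≅ S.obj ((X.sp.prod Y.sp).fix H) :=
  H399.mulI S (fc_fix X.gfc H) (fc_fix Y.gfc H) ≪≫
    S.fun'.mapIso (M.fcIso (X := ⟨fixL X.sp H, fc_toLC (fc_fix X.gfc H)⟩ ⊗
      ⟨fixL Y.sp H, fc_toLC (fc_fix Y.gfc H)⟩)
      (Y := ⟨fixL (X.sp.prod Y.sp) H, fc_toLC (fc_fix (X.prod Y).gfc H)⟩) (fixProd X.sp Y.sp H))

theorem fixMul_naturality {X X' Y Y' : GFin G} (f : X ⟶ X') (g : Y ⟶ Y') :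
    (fixMul S H X Y).hom ≫ S.map (fixM (X := X.prod Y) (Y := X'.prod Y') (GMap.smash f g) H) =
      (S.map (fixM f H) ⊗ₘ S.map (fixM g H)) ≫ (fixMul S H X' Y').hom := by
  let XF : I.FCat := ⟨fixL X.sp H, fc_toLC (fc_fix X.gfc H)⟩
  let YF : I.FCat := ⟨fixL Y.sp H, fc_toLC (fc_fix Y.gfc H)⟩
  let XF' : I.FCat := ⟨fixL X'.sp H, fc_toLC (fc_fix X'.gfc H)⟩
  let YF' : I.FCat := ⟨fixL Y'.sp H, fc_toLC (fc_fix Y'.gfc H)⟩
  let P : I.FCat := ⟨fixL (X.sp.prod Y.sp) H, fc_toLC (fc_fix (X.prod Y).gfc H)⟩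
  let P' : I.FCat := ⟨fixL (X'.sp.prod Y'.sp) H, fc_toLC (fc_fix (X'.prod Y').gfc H)⟩
  let fF : XF ⟶ XF' := I.FCat.hom (toHom (fixM f H))
  let gF : YF ⟶ YF' := I.FCat.hom (toHom (fixM g H))
  let kF : P ⟶ P' :=
    I.FCat.hom (toHom (fixM (X := X.prod Y) (Y := X'.prod Y') (GMap.smash f g) H))
  have h1 : (fixProd X.sp Y.sp H).hom ≫
      toHom (fixM (X := X.prod Y) (Y := X'.prod Y') (GMap.smash f g) H) =
      (toHom (fixM f H) ⊗ₘ toHom (fixM g H)) ≫ (fixProd X'.sp Y'.sp H).hom := by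
    have h2 := (fixM_spec (X := X.prod Y) (Y := X'.prod Y') (GMap.smash f g) H).comm H
    have h3 : toHom (GMap.smash f g).1 = gten (toHom f.1) (toHom g.1) :=
      app_ext fun z => congrFun (smashFun_eq f.1 g.1) z
    rw [← cancel_mono (fixι (X'.sp.prod Y'.sp) H), Category.assoc, Category.assoc]
    refine (congrArg (fun k => (fixProd X.sp Y.sp H).hom ≫ k) h2).trans ?_
    rw [fixProd_hom_ι, MonoidalCategory.tensorHom_comp_tensorHom_assoc, (fixM_spec f H).comm H,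
      (fixM_spec g H).comm H, ← MonoidalCategory.tensorHom_comp_tensorHom_assoc, ← pr_gten,
      ← fixProd_hom_ι_assoc, ← h3]
  have h4 : (M.fcIso (X := XF ⊗ YF) (Y := P) (fixProd X.sp Y.sp H)).hom ≫ kF =
      (fF ⊗ₘ gF) ≫ (M.fcIso (X := XF' ⊗ YF') (Y := P') (fixProd X'.sp Y'.sp H)).hom :=
    ObjectProperty.hom_ext _ h1
  change ((S.mulIso XF YF).hom ≫
    S.fun'.map (M.fcIso (X := XF ⊗ YF) (Y := P) (fixProd X.sp Y.sp H)).hom) ≫ S.fun'.map kF =
    (S.fun'.map fF ⊗ₘ S.fun'.map gF) ≫ (S.mulIso XF' YF').hom ≫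
      S.fun'.map (M.fcIso (X := XF' ⊗ YF') (Y := P') (fixProd X'.sp Y'.sp H)).hom
  rw [Category.assoc, ← S.fun'.map_comp, h4, S.fun'.map_comp, ← Category.assoc, S.map_tensor,
    Category.assoc]

theorem map_fixM_id (X : GFin G) : S.map (fixM (𝟙 X) H) = 𝟙 (S.obj (X.sp.fix H)) :=
  S.map_id _ (fc_fix X.gfc H) ((fixM_spec (𝟙 X) H).eq_id H)

theorem map_fixM_smash (X : GFin G) {Y : GFin G} (g : Y ⟶ Y) {a : ℤ}
    (h : S.map (fixM g H) = a • 𝟙 _) :
    S.map (fixM (X := X.prod Y) (Y := X.prod Y) (GMap.smash (𝟙 X : X ⟶ X) g) H) = a • 𝟙 _ := by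
  rw [← cancel_epi (fixMul S H X Y).hom, fixMul_naturality, map_fixM_id, h,
    MonoidalCategory.id_tensorHom, P093.PLoc.whiskerLeft_zsmul, MonoidalCategory.whiskerLeft_id,
    Preadditive.zsmul_comp, Preadditive.comp_zsmul, Category.id_comp, Category.comp_id]

variable (G) in
/-- the regular representation as a finite `G`-cell space -/
abbrev regF : GFin G := ⟨reg G, gfc_reg⟩

variable (G) in
/-- the trivial line as a finite `G`-cell space -/
abbrev lineF : GFin G := ⟨GSpace.triv G Rr, H32.gfc_triv H399.fc_Rr⟩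

/-- the fixed points of the trivial line -/
def fixLine : S.obj Rr ≅ S.obj ((GSpace.triv G Rr).fix H) :=
  S.fun'.mapIso (M.fcIso (X := I.RRF)
    (Y := ⟨fixL (GSpace.triv G Rr) H, fc_toLC (fc_fix (lineF G).gfc H)⟩) (fixTriv Rr H))

theorem map_fixM_triv (d : Map Rr Rr) :
    (fixLine S H).hom ≫ S.map (fixM (X := lineF G) (Y := lineF G) (GMap.triv G d) H) =
      S.map d ≫ (fixLine S H).hom := by
  let P : I.FCat := ⟨fixL (GSpace.triv G Rr) H, fc_toLC (fc_fix (lineF G).gfc H)⟩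
  let kF : P ⟶ P := I.FCat.hom (toHom (fixM (X := lineF G) (Y := lineF G) (GMap.triv G d) H))
  let dF : I.RRF ⟶ I.RRF := I.FCat.hom (toHom d)
  have h1 : (fixTriv (G := G) Rr H).hom ≫
      toHom (fixM (X := lineF G) (Y := lineF G) (GMap.triv G d) H) =
      toHom d ≫ (fixTriv (G := G) Rr H).hom := by
    have h2 := (fixM_spec (X := lineF G) (Y := lineF G) (GMap.triv G d) H).comm H
    rw [← cancel_mono (fixι (GSpace.triv G Rr) H), Category.assoc, Category.assoc]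
    refine (congrArg (fun k => (fixTriv (G := G) Rr H).hom ≫ k) h2).trans ?_
    rw [fixTriv_hom_ι]
    exact fixTriv_hom_ι_assoc Rr H _
  have h4 : (M.fcIso (X := I.RRF) (Y := P) (fixTriv Rr H)).hom ≫ kF =
      dF ≫ (M.fcIso (X := I.RRF) (Y := P) (fixTriv Rr H)).hom := ObjectProperty.hom_ext _ h1
  change S.fun'.map (M.fcIso (X := I.RRF) (Y := P) (fixTriv Rr H)).hom ≫ S.fun'.map kF =
    S.fun'.map dF ≫ S.fun'.map (M.fcIso (X := I.RRF) (Y := P) (fixTriv Rr H)).hom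
  rw [← S.fun'.map_comp, h4, S.fun'.map_comp]

theorem fixF_deg {m : ℕ} {d : Map Rr Rr} (hd : IsDeg m d) (X : GFin G)
    (f : X.prod (lineF G) ⟶ X.prod (lineF G))
    (hf : ∀ (x : X.sp.und.Pt) (y : Rr.Pt), f.1.toFun (St.smash x y) = St.smash x (d.toFun y)) :
    (fixF S H).map f = (m : ℤ) • 𝟙 _ := by
  have h1 : S.map (fixM (X := lineF G) (Y := lineF G) (GMap.triv G d) H) = (m : ℤ) • 𝟙 _ := by
    rw [← cancel_epi (fixLine S H).hom, map_fixM_triv, map_isDeg S hd, Preadditive.zsmul_comp,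
      Preadditive.comp_zsmul, Category.id_comp, Category.comp_id]
  have h2 : f = GMap.smash (𝟙 X : X ⟶ X) (GMap.triv G d) := by
    refine ghom_ext (funext fun z => ?_)
    obtain ⟨x, y, rfl⟩ := smash_surj (X := X.sp.und) (Y := Rr) z
    exact (hf x y).trans (smashFun_smash (X := X.sp.und) (X' := X.sp.und) (f := id) rfl
      d.map_infty x y).symm
  rw [h2]
  exact map_fixM_smash S H X (Y := lineF G) _ h1

end Vale.Agent.P241Z
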